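import Vale.Agent.P188.B.Geom
import Vale.Agent.P188.VP
import Vale.Agent.P188.UB

/-! Deterministic core of the sibling move, part (a).
Notation: `s = ray i`, `s' = w₂ s`, `o₁ = - w₁ (A ζ)`, `b₀ = (φ x₁)⁻¹ φ x₂`,
`Δ = o₁ - A b₀ + R'' s'`.  Plan: `Y` = the set of `Ad ζ⁻¹ y`, `y ∈ K r₃`, for which `c1` and the
bound `|p (displacement)| ≤ exp b` hold (measurable).  Every `y` having some `τ` with
`(y, τ) ∈ Gd` belongs to it: the displacement is `b₀ * (x ζ₂) * b₁` with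
`ln b₀, ln b₁ ≤ K ρ + C`; `GenF.mul`, `GenF.u0`, `GenF.abs_le_K`, `GenF.abs_le_ln` give
`b = log 3 + max (C ρ) (⟪μ, A b₀⟫ + r₂ μ + log C)`.  Fubini: `mE Y ≥ (3/4) mE (K r₃)`
(`mE_image_Ad`), `vol_K`, `Phi_hb`, `Phi_le_add`; then `vp` with `τ = ⟪μ, o₁⟫ + R'' ‖μ‖`.
`h_image_OmP` evaluates `r₂`; off the ray `angle_gap` gives `hl ≤ hb 0 R''` and
`R'' (‖μ‖ - ⟪μ, s'⟫) ≥ γ R'' ‖μ‖ ≥ C ρ`.  `gen_span` gives the norm bound. -/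

namespace Vale.Agent.P188.Geo
open scoped InnerProductSpace Pointwise
open MeasureTheory
variable (M : Geo)

/-- Hypotheses of the deterministic core. -/
structure Core (φ : M.G → M.G) (i : Fin M.d) (R R'' η ρ t : ℝ) (x₁ x₂ ζ g : M.G)
    (w₁ w₂ : M.V ≃ₗᵢ[ℝ] M.V) (Gd : Set (M.G × M.G)) : Prop where
  hi : M.wt i ≠ 0
  hη : 0 ≤ η
  hR : R / 2 ≤ R''
  hR' : R'' ≤ R
  gap : (1 + 2 * η) * R - R'' ≤ ρ
  ht : Real.log (2 + R ^ 3) ≤ t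
  htρ : t ≤ ρ
  hw₂ : w₂ ∈ M.W
  hζ : M.A ζ = R'' • M.ray i
  hg : g ∈ M.e
  near : M.ln (x₁⁻¹ * x₂) ≤ ρ
  near' : ∀ τ ∈ M.K (M.hl R η (M.ray i)), M.ln (M.Ad ζ⁻¹ (g * τ)) ≤ ρ
  meas : MeasurableSet Gd
  sub : Gd ⊆ M.K (fun j => M.hb 0 R'' j - t) ×ˢ M.K (M.hl R η (M.ray i))
  big : 3 / 4 * (M.mE.real (M.K (fun j => M.hb 0 R'' j - t)) *
    M.mE.real (M.K (M.hl R η (M.ray i)))) ≤ (M.mE.prod M.mE).real Gd
  c1 : ∀ q ∈ Gd, (φ x₁)⁻¹ * φ (x₁ * M.Ad ζ⁻¹ q.1) ∈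
      M.K (fun j => M.hb (-w₁ (M.A ζ)) R'' j + t) * M.Z (R ^ 3) ∧
    ‖M.A ((φ x₁)⁻¹ * φ (x₁ * M.Ad ζ⁻¹ q.1))‖ ≤ t
  c2 : ∀ q ∈ Gd, (φ x₂)⁻¹ * φ (x₁ * M.Ad ζ⁻¹ (q.1 * g * q.2)) ∈
      M.K (fun j => M.h (w₂ '' M.OmP R'' R η (M.ray i)) j - M.wv (w₂ (M.A ζ)) j + t) *
        M.Z (R ^ 3) ∧
    ‖M.A ((φ x₂)⁻¹ * φ (x₁ * M.Ad ζ⁻¹ (q.1 * g * q.2)))‖ ≤ t

theorem ca_short (K C : ℝ) {μ p} (hp : M.GenF μ p) : ∃ C₁ : ℝ, 1 ≤ C₁ ∧ ∀ φ,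
    IsQI M.Q M.Q K C φ → ∀ (x b : M.G) (ρ : ℝ), 1 ≤ ρ → M.ln b ≤ ρ →
      |p ((φ x)⁻¹ * φ (x * b))| ≤ Real.exp (C₁ * ρ) ∧ ‖M.A ((φ x)⁻¹ * φ (x * b))‖ ≤ C₁ * ρ := by
  obtain ⟨C1, c1, h1⟩ := GenF.abs_le_ln M hp
  obtain ⟨C2, c2, h2⟩ := M.norm_ah_le
  have hL : 0 ≤ |K| + |C| := by positivity
  refine ⟨(C1 + C2) * (|K| + |C| + 1), by nlinarith, fun φ hφ x b ρ hρ hb => ?_⟩
  have h3 : M.ln ((φ x)⁻¹ * φ (x * b)) ≤ (|K| + |C| + 1) * ρ := by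
    have h4 := IsQI.ln_le M hφ x b
    have h5 : K * M.ln b ≤ |K| * ρ :=
      mul_le_mul (le_abs_self K) hb (M.ln_nonneg b) (abs_nonneg K)
    have h6 : C ≤ |C| * ρ := (le_abs_self C).trans (le_mul_of_one_le_right (abs_nonneg C) hρ)
    linarith
  have h0 : 0 ≤ (|K| + |C| + 1) * ρ := by positivity
  constructor
  · refine (h1 _).trans (Real.exp_le_exp.2 ?_)
    rw [mul_assoc]
    exact mul_le_mul (by linarith) h3 (M.ln_nonneg _) (by linarith)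
  · refine (h2 _).2.trans ?_
    rw [mul_assoc]
    exact mul_le_mul (by linarith) h3 (M.ln_nonneg _) (by linarith)

theorem ca_disp {μ p} (hp : M.GenF μ p) {b₀ x z b₁ : M.G} {a E : ℝ} (ha : 0 ≤ a)
    (h0 : |p b₀| ≤ Real.exp a) (h1 : |p b₁| ≤ Real.exp a) (h2 : ‖M.A b₀‖ ≤ a)
    (h3 : ‖M.A (x * z)‖ ≤ a) (hz : z ∈ M.u0) (hx : |p x| ≤ Real.exp E) :
    |p (b₀ * (x * z) * b₁)| ≤
      Real.exp (2 + max ((1 + 2 * ‖μ‖) * a) (⟪μ, M.A b₀⟫_ℝ + E)) := by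
  have hμ := norm_nonneg μ
  set m := max ((1 + 2 * ‖μ‖) * a) (⟪μ, M.A b₀⟫_ℝ + E)
  have m1 : (1 + 2 * ‖μ‖) * a ≤ m := le_max_left _ _
  have m2 : ⟪μ, M.A b₀⟫_ℝ + E ≤ m := le_max_right _ _
  have e1 : p (x * z) = p x := by rw [GenF.mul M hp, GenF.u0 M hp hz, mul_zero, add_zero]
  have a1 : |p b₀| ≤ Real.exp m := h0.trans (Real.exp_le_exp.2 (by nlinarith))
  have a2 : |Real.exp ⟪μ, M.A b₀⟫_ℝ * p x| ≤ Real.exp m := by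
    rw [abs_mul, abs_of_pos (Real.exp_pos _)]
    refine (mul_le_mul_of_nonneg_left hx (Real.exp_pos _).le).trans ?_
    rw [← Real.exp_add]
    exact Real.exp_le_exp.2 m2
  have a3 : |Real.exp ⟪μ, M.A (b₀ * (x * z))⟫_ℝ * p b₁| ≤ Real.exp m := by
    rw [abs_mul, abs_of_pos (Real.exp_pos _)]
    refine (mul_le_mul_of_nonneg_left h1 (Real.exp_pos _).le).trans ?_
    rw [← Real.exp_add]
    refine Real.exp_le_exp.2 ?_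
    have h4 : ‖M.A (b₀ * (x * z))‖ ≤ 2 * a := by
      rw [M.A_mul]
      exact (norm_add_le _ _).trans (by linarith)
    have h5 := (real_inner_le_norm μ (M.A (b₀ * (x * z)))).trans
      (mul_le_mul_of_nonneg_left h4 hμ)
    linarith
  have a4 : 3 ≤ Real.exp 2 := by linarith [Real.add_one_le_exp 2]
  rw [GenF.mul M hp, GenF.mul M hp b₀, e1, Real.exp_add]
  refine (abs_add_three _ _ _).trans ?_
  nlinarith [Real.exp_pos m]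

theorem ca_vol : ∃ C₃ : ℝ, 1 ≤ C₃ ∧ ∀ (G : Set M.G) (ζ : M.G) (o : M.V) (R t : ℝ)
    (r : Fin M.d → ℝ) (Gd : Set (M.G × M.G)), 1 ≤ t →
      Gd ⊆ M.K (fun j => M.hb 0 R j - t) ×ˢ M.K r →
      3 / 4 * (M.mE.real (M.K (fun j => M.hb 0 R j - t)) * M.mE.real (M.K r)) ≤
        (M.mE.prod M.mE).real Gd → (∀ q ∈ Gd, M.Ad ζ q.1 ∈ G) →
      Real.exp (M.Phi (fun j => M.hb o R j + t) - C₃ * t) ≤
        M.mE.real (M.Ad ζ '' M.K (fun j => M.hb 0 R j - t) ∩ G) := by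
  have : SFinite M.mE := inferInstanceAs (SFinite (subMu M.e))
  have : IsFiniteMeasureOnCompacts M.mE := inferInstanceAs (IsFiniteMeasureOnCompacts (subMu M.e))
  obtain ⟨C, c, h⟩ := M.vol_K
  have hd : (0 : ℝ) ≤ M.d * M.c := by positivity
  refine ⟨2 * (M.d * M.c) + 2 * C, by linarith, fun G ζ o R t r Gd ht hs hb hG => ?_⟩
  set K₃ := M.K (fun j => M.hb 0 R j - t)
  have k3 : IsCompact K₃ := (M.K_isLB _).compact
  have h1 : (M.mE.prod M.mE).real Gd ≤ M.mE.real (K₃ ∩ M.Ad ζ ⁻¹' G) * M.mE.real (M.K r) := by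
    rw [← measureReal_prod_prod]
    refine measureReal_mono (fun q hq => ⟨⟨(hs hq).1, hG q hq⟩, (hs hq).2⟩) ?_
    rw [Measure.prod_prod]
    exact ENNReal.mul_ne_top (measure_ne_top_of_subset Set.inter_subset_left k3.measure_ne_top)
      (M.K_isLB r).compact.measure_ne_top
  have h2 : 3 / 4 * M.mE.real K₃ ≤ M.mE.real (K₃ ∩ M.Ad ζ ⁻¹' G) :=
    le_of_mul_le_mul_right (by linarith) (M.mE_K_pos r)
  rw [← Set.image_inter_preimage, Measure.real, M.mE_image_Ad, ← Measure.real]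
  have h3 := M.Phi_le_add (r := M.hb o R) (r' := fun j => M.hb o R j + t) (t := t) (by linarith)
    fun _ _ => le_rfl
  have h4 := M.Phi_le_add (r' := M.hb 0 R) (r := fun j => M.hb 0 R j - t) (t := t) (by linarith)
    fun _ _ => by simp
  rw [M.Phi_hb] at h3
  have h5 := (h fun j => M.hb 0 R j - t).1
  have h6 : 2 * C ≤ Real.exp (2 * C * t) := by
    have := Real.add_one_le_exp (2 * C * t)
    nlinarith
  have h7 : Real.exp (M.Phi (fun j => M.hb o R j + t) - (2 * (M.d * M.c) + 2 * C) * t) *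
      Real.exp (2 * C * t) ≤ Real.exp (M.Phi fun j => M.hb 0 R j - t) := by
    rw [← Real.exp_add]
    exact Real.exp_le_exp.2 (by linarith)
  have h8 := mul_le_mul_of_nonneg_left h6 (Real.exp_pos
    (M.Phi (fun j => M.hb o R j + t) - (2 * (M.d * M.c) + 2 * C) * t)).le
  have h9 : 0 ≤ M.mE.real K₃ := measureReal_nonneg
  refine le_of_mul_le_mul_right (a := 2 * C) ?_ (by linarith)
  nlinarith

theorem Core.one_le {M : Geo} {φ i R R'' η ρ t x₁ x₂ ζ g w₁ w₂ Gd}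
    (h : M.Core φ i R R'' η ρ t x₁ x₂ ζ g w₁ w₂ Gd) (hR : 1 ≤ R) : 1 ≤ t := by
  refine le_trans ?_ h.ht
  rw [Real.le_log_iff_exp_le (by positivity)]
  have := Real.exp_one_lt_three
  have := one_le_pow₀ (n := 3) hR
  linarith

theorem ca_one (K C : ℝ) {μ p} (hp : M.GenF μ p) : ∃ C' : ℝ, 1 ≤ C' ∧
    ∀ φ i R R'' η ρ t x₁ x₂ ζ g w₁ w₂ Gd, M.MQI K C φ → 1 ≤ R →
      M.Core φ i R R'' η ρ t x₁ x₂ ζ g w₁ w₂ Gd → ∀ j, M.wt j = μ →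
      ⟪μ, (M.A (φ x₁) - w₁ (M.A ζ)) - (M.A (φ x₂) - w₂ (M.A ζ))⟫_ℝ ≤
        C' * ρ - R'' * (‖μ‖ - ⟪μ, w₂ (M.ray i)⟫_ℝ) ∨
      ⟪μ, (M.A (φ x₁) - w₁ (M.A ζ)) - (M.A (φ x₂) - w₂ (M.A ζ))⟫_ℝ ≤
        max (R'' * ‖μ‖) (M.hl R η (w₂ (M.ray i)) j) - R'' * ‖μ‖ + C' * t := by
  obtain ⟨C1, c1, h1⟩ := M.ca_short K C hp
  obtain ⟨C2, c2, h2⟩ := GenF.abs_le_K M hp
  obtain ⟨C3, c3, h3⟩ := M.ca_vol
  obtain ⟨C4, c4, h4⟩ := M.vp K C hp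
  have hμ := norm_nonneg μ
  have c5 : 1 ≤ C4 * C3 := one_le_mul_of_one_le_of_one_le c4 c3
  have c6 : 0 ≤ (1 + 3 * ‖μ‖) * C1 := by positivity
  refine ⟨3 + C2 + C4 * C3 + (1 + 3 * ‖μ‖) * C1, by linarith,
    fun φ i R R'' η ρ t x₁ x₂ ζ g w₁ w₂ Gd hφ hR h j hj => ?_⟩
  have ht := h.one_le hR
  have hρ := ht.trans h.htρ
  have hR'' : 0 ≤ R'' := by linarith [h.hR]
  have hηR : 0 ≤ η * R := mul_nonneg h.hη (by linarith)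
  set hh := max (R'' * ‖μ‖) (M.hl R η (w₂ (M.ray i)) j)
  set E := hh - R'' * ⟪μ, w₂ (M.ray i)⟫_ℝ + t + C2
  set b₀ := (φ x₁)⁻¹ * φ x₂ with hb₀
  set b := 2 + max ((1 + 2 * ‖μ‖) * (C1 * ρ)) (⟪μ, M.A b₀⟫_ℝ + E)
  set G : Set M.G := {y | (φ x₁)⁻¹ * φ (x₁ * y) ∈
    M.K (fun j => M.hb (-w₁ (M.A ζ)) R'' j + t) * M.Z (R ^ 3) ∧
    ‖M.A ((φ x₁)⁻¹ * φ (x₁ * y))‖ ≤ t ∧ |p ((φ x₁)⁻¹ * φ (x₁ * y))| ≤ Real.exp b}
  have mG : MeasurableSet G := by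
    have m1 : Measurable fun y => (φ x₁)⁻¹ * φ (x₁ * y) :=
      (measurable_const_mul _).comp (hφ.1.comp (measurable_const_mul _))
    exact (m1 ((M.K_isLB _).compact.mul (M.Z_isLB _).compact).measurableSet).inter
      ((measurableSet_le (M.lie_cA.norm.measurable.comp m1) measurable_const).inter
        (measurableSet_le (p.continuous_of_finiteDimensional.abs.measurable.comp m1)
          measurable_const))
  have a0 := h1 φ hφ.2 x₁ (x₁⁻¹ * x₂) ρ hρ h.near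
  rw [mul_inv_cancel_left, ← hb₀] at a0
  have hG : ∀ q ∈ Gd, M.Ad ζ⁻¹ q.1 ∈ G := fun q hq => by
    refine ⟨(h.c1 q hq).1, (h.c1 q hq).2, ?_⟩
    obtain ⟨⟨x, hx, z, hz, e⟩, a1⟩ := h.c2 q hq
    have q1 := M.K_sub_e _ (h.sub hq).1
    have q2 := M.mul_mem_e h.hg (M.K_sub_e _ (h.sub hq).2)
    have a2 := h1 φ hφ.2 (x₁ * M.Ad ζ⁻¹ (q.1 * g * q.2)) (M.Ad ζ⁻¹ (g * q.2))⁻¹ ρ hρ
      (by rw [M.ln_inv]; exact h.near' _ (h.sub hq).2)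
    have e1 : x₁ * M.Ad ζ⁻¹ (q.1 * g * q.2) * (M.Ad ζ⁻¹ (g * q.2))⁻¹ = x₁ * M.Ad ζ⁻¹ q.1 := by
      rw [mul_assoc q.1, ← M.conj_eq (Or.inl (M.A_e (M.mul_mem_e q1 q2))),
        ← M.conj_eq (Or.inl (M.A_e q2)), ← M.conj_eq (Or.inl (M.A_e q1))]
      group
    rw [e1] at a2
    have e' : x * z = (φ x₂)⁻¹ * φ (x₁ * M.Ad ζ⁻¹ (q.1 * g * q.2)) := e
    have e2 : (φ x₁)⁻¹ * φ (x₁ * M.Ad ζ⁻¹ q.1) = b₀ * (x * z) *
        ((φ (x₁ * M.Ad ζ⁻¹ (q.1 * g * q.2)))⁻¹ * φ (x₁ * M.Ad ζ⁻¹ q.1)) := by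
      rw [e', hb₀]
      group
    rw [e2]
    refine M.ca_disp hp (by positivity) a0.1 a2.1 a0.2 ?_ (M.Z_sub_u0 _ hz) ?_
    · rw [e']
      exact a1.trans (h.htρ.trans (le_mul_of_one_le_left (by linarith) c1))
    · refine (h2 _ (hh - R'' * ⟪μ, w₂ (M.ray i)⟫_ℝ + t) (fun k hk => le_of_eq ?_) x hx).trans ?_
      · have e3 : M.hl R η (w₂ (M.ray i)) k = M.hl R η (w₂ (M.ray i)) j :=
          M.hb_wtFun _ _ _ _ (hk.trans hj.symm)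
        rw [M.h_image_OmP hR'' hηR, e3, hb, wv, hk, h.hζ, map_smul, inner_smul_right,
          inner_zero_right, zero_add]
      · rw [mul_comm, Real.exp_add _ C2]
        exact mul_le_mul_of_nonneg_left (by linarith [Real.add_one_le_exp C2]) (Real.exp_pos _).le
  have no : ‖-w₁ (M.A ζ)‖ = R'' := by
    rw [norm_neg, w₁.norm_map, h.hζ, norm_smul, M.norm_ray h.hi, mul_one, Real.norm_of_nonneg hR'']
  have t3 : t ≤ C3 * t := le_mul_of_one_le_left (by linarith) c3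
  have kc := (M.K_isLB fun j => M.hb 0 R'' j - t).compact.image
    (M.Ad ζ⁻¹).continuous_of_finiteDimensional
  have key := h4 φ hφ.2 x₁ (M.Ad ζ⁻¹ '' M.K (fun j => M.hb 0 R'' j - t) ∩ G)
    (fun j => M.hb (-w₁ (M.A ζ)) R'' j + t) (R ^ 3) (C3 * t) b
    (⟪μ, -w₁ (M.A ζ)⟫_ℝ + R'' * ‖μ‖) (kc.measurableSet.inter mG)
    (by rintro _ ⟨⟨y, hy, rfl⟩, -⟩; exact M.Ad_mem_e _ (M.K_sub_e _ hy))
    (measure_ne_top_of_subset Set.inter_subset_left (kc.measure_ne_top (μ := subMu M.e)))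
    (by positivity) (h.ht.trans t3)
    (fun k _ => by
      have := abs_real_inner_le_norm (M.wt k) (-w₁ (M.A ζ))
      rw [no] at this
      have := neg_le_of_abs_le this
      simp only [hb]
      linarith)
    (fun k hk => by simp only [hb, hk]; linarith)
    (h3 G ζ⁻¹ _ R'' t _ Gd ht h.sub h.big hG)
    (fun y hy => ⟨hy.2.1, hy.2.2.1.trans t3, hy.2.2.2⟩)
  have b0 : 0 ≤ (1 + 2 * ‖μ‖) * (C1 * ρ) := by positivity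
  have b1 : max b 0 = b := max_eq_left (add_nonneg zero_le_two (b0.trans (le_max_left _ _)))
  have eΔ : ⟪μ, (M.A (φ x₁) - w₁ (M.A ζ)) - (M.A (φ x₂) - w₂ (M.A ζ))⟫_ℝ =
      ⟪μ, -w₁ (M.A ζ)⟫_ℝ - ⟪μ, M.A b₀⟫_ℝ + R'' * ⟪μ, w₂ (M.ray i)⟫_ℝ := by
    rw [hb₀, M.A_mul, M.A_inv, ← inner_smul_right, ← map_smul, ← h.hζ, ← inner_sub_right,
      ← inner_add_right]
    congr 1
    abel
  have b2 : -⟪μ, M.A b₀⟫_ℝ ≤ ‖μ‖ * (C1 * ρ) :=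
    (neg_le_abs _).trans ((abs_real_inner_le_norm _ _).trans (mul_le_mul_of_nonneg_left a0.2 hμ))
  have b3 : C4 * C3 * t ≤ C4 * C3 * ρ := mul_le_mul_of_nonneg_left h.htρ (by linarith)
  have b4 : C2 ≤ C2 * t := le_mul_of_one_le_right (by linarith) ht
  have b5 : 0 ≤ C2 * ρ := by positivity
  have b6 : 0 ≤ (1 + 3 * ‖μ‖) * C1 * t := by positivity
  rw [b1] at key
  rw [eΔ]
  rcases le_total ((1 + 2 * ‖μ‖) * (C1 * ρ)) (⟪μ, M.A b₀⟫_ℝ + E) with hc | hc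
  · right
    simp only [b, max_eq_right hc, E] at key
    linarith
  · left
    simp only [b, max_eq_left hc] at key
    linarith

theorem core_a (K C : ℝ) : ∃ c₀ C' : ℝ, 0 < c₀ ∧ 1 ≤ C' ∧
    ∀ φ i R R'' η ρ t x₁ x₂ ζ g w₁ w₂ Gd, M.MQI K C φ → 1 ≤ R → ρ ≤ c₀ * R →
      M.Core φ i R R'' η ρ t x₁ x₂ ζ g w₁ w₂ Gd →
      ‖(M.A (φ x₁) - w₁ (M.A ζ)) - (M.A (φ x₂) - w₂ (M.A ζ))‖ ≤ C' * ρ ∧
      ∀ j μ p, M.GenF μ p → M.wt j = μ → ¬ M.OnRay (w₂ (M.ray i)) j →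
        ⟪μ, (M.A (φ x₁) - w₁ (M.A ζ)) - (M.A (φ x₂) - w₂ (M.A ζ))⟫_ℝ ≤ C' * t := by
  have h0 : ∀ j : Fin M.d, ∃ C' : ℝ, 1 ≤ C' ∧ ∀ p, M.GenF (M.wt j) p →
      ∀ φ i R R'' η ρ t x₁ x₂ ζ g w₁ w₂ Gd, M.MQI K C φ → 1 ≤ R →
      M.Core φ i R R'' η ρ t x₁ x₂ ζ g w₁ w₂ Gd →
      ⟪M.wt j, (M.A (φ x₁) - w₁ (M.A ζ)) - (M.A (φ x₂) - w₂ (M.A ζ))⟫_ℝ ≤
        C' * ρ - R'' * (‖M.wt j‖ - ⟪M.wt j, w₂ (M.ray i)⟫_ℝ) ∨
      ⟪M.wt j, (M.A (φ x₁) - w₁ (M.A ζ)) - (M.A (φ x₂) - w₂ (M.A ζ))⟫_ℝ ≤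
        max (R'' * ‖M.wt j‖) (M.hl R η (w₂ (M.ray i)) j) - R'' * ‖M.wt j‖ + C' * t := by
    intro j
    by_cases hj : ∃ p, M.GenF (M.wt j) p
    · obtain ⟨p, hp⟩ := hj
      obtain ⟨C', c, h⟩ := M.ca_one K C hp
      exact ⟨C', c, fun _ _ φ i R R'' η ρ t x₁ x₂ ζ g w₁ w₂ Gd h1 h2 h3 =>
        h φ i R R'' η ρ t x₁ x₂ ζ g w₁ w₂ Gd h1 h2 h3 j rfl⟩
    · exact ⟨1, le_rfl, fun p hp => (hj ⟨p, hp⟩).elim⟩
  choose f f1 f2 using h0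
  obtain ⟨C0, c0⟩ := (Set.finite_range f).bddAbove
  obtain ⟨C1, c1, c1'⟩ : ∃ C1 : ℝ, 1 ≤ C1 ∧ ∀ j, f j ≤ C1 :=
    ⟨max 1 C0, le_max_left _ _, fun j => le_max_of_le_right (c0 ⟨j, rfl⟩)⟩
  obtain ⟨C2, c2, h2⟩ := M.gen_span
  obtain ⟨γ, g0, -, h3⟩ := M.angle_gap
  obtain ⟨c, hc, h4⟩ := M.exists_wmin
  have hw := M.wmax_nonneg
  have c3 : C1 + M.wmax ≤ C2 * (C1 + M.wmax) := le_mul_of_one_le_left (by linarith) c2
  refine ⟨min γ (γ * c / (2 * C1)), C2 * (C1 + M.wmax), by positivity, by linarith,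
    fun φ i R R'' η ρ t x₁ x₂ ζ g w₁ w₂ Gd hφ hR hρ h => ?_⟩
  have ht := h.one_le hR
  have hρ1 := ht.trans h.htρ
  have hR'' : 0 ≤ R'' := by linarith [h.hR]
  have ns : ‖w₂ (M.ray i)‖ = 1 := by rw [w₂.norm_map, M.norm_ray h.hi]
  have hη := h.hη
  have e1 : ∀ j, M.hl R η (w₂ (M.ray i)) j =
      (1 + η) * R * ⟪M.wt j, w₂ (M.ray i)⟫_ℝ + η * R * ‖M.wt j‖ := fun j => by
    rw [hl, hb, inner_smul_right]
  have p1 : 0 ≤ (1 + η) * R := by positivity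
  refine ⟨?_, ?_⟩
  · rw [mul_assoc]
    refine h2 _ _ (by positivity) fun μ p hp => ?_
    obtain ⟨j, rfl, -⟩ := GenF.exists_X M hp
    have a1 : ⟪M.wt j, w₂ (M.ray i)⟫_ℝ ≤ ‖M.wt j‖ := by
      simpa [ns] using real_inner_le_norm (M.wt j) (w₂ (M.ray i))
    have a2 : f j * ρ ≤ C1 * ρ := mul_le_mul_of_nonneg_right (c1' j) (by linarith)
    have a3 : ‖M.wt j‖ * ρ ≤ M.wmax * ρ := mul_le_mul_of_nonneg_right (M.norm_wt_le j) (by linarith)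
    have a4 : 0 ≤ ‖M.wt j‖ * ρ := by positivity
    rcases f2 j p hp φ i R R'' η ρ t x₁ x₂ ζ g w₁ w₂ Gd hφ hR h with k | k
    · have := mul_nonneg hR'' (sub_nonneg.2 a1)
      linarith
    · have a5 : f j * t ≤ f j * ρ := mul_le_mul_of_nonneg_left h.htρ (by linarith [f1 j])
      have a6 : max (R'' * ‖M.wt j‖) (M.hl R η (w₂ (M.ray i)) j) ≤
          R'' * ‖M.wt j‖ + ‖M.wt j‖ * ρ := by
        refine max_le (by linarith) ?_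
        have := mul_le_mul_of_nonneg_left a1 p1
        have := mul_le_mul_of_nonneg_left h.gap (norm_nonneg (M.wt j))
        rw [e1]
        linarith
      linarith
  · rintro j _ p hp rfl hj
    have a1 : ⟪M.wt j, w₂ (M.ray i)⟫_ℝ ≤ (1 - γ) * ‖M.wt j‖ :=
      (h3 w₂ h.hw₂ i j h.hi hp.1).resolve_left hj
    have a2 : f j * t ≤ C2 * (C1 + M.wmax) * t :=
      mul_le_mul_of_nonneg_right (by linarith [c1' j]) (by linarith)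
    have a3 : 0 ≤ f j * t := mul_nonneg (by linarith [f1 j]) (by linarith)
    have r1 : ρ ≤ γ * R := hρ.trans (mul_le_mul_of_nonneg_right (min_le_left _ _) (by linarith))
    have r2 : ρ ≤ γ * c / (2 * C1) * R :=
      hρ.trans (mul_le_mul_of_nonneg_right (min_le_right _ _) (by linarith))
    have n0 := norm_nonneg (M.wt j)
    rcases f2 j p hp φ i R R'' η ρ t x₁ x₂ ζ g w₁ w₂ Gd hφ hR h with k | k
    · have a4 : f j * ρ ≤ C1 * ρ := mul_le_mul_of_nonneg_right (c1' j) (by linarith)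
      have a5 : C1 * ρ ≤ R / 2 * (γ * c) := by
        refine (mul_le_mul_of_nonneg_left r2 (by linarith)).trans (le_of_eq ?_)
        field_simp
      have a6 : R / 2 * (γ * c) ≤ R'' * (‖M.wt j‖ - ⟪M.wt j, w₂ (M.ray i)⟫_ℝ) := by
        refine mul_le_mul h.hR ?_ (by positivity) hR''
        have := mul_le_mul_of_nonneg_left (h4 j hp.1) g0.le
        linarith
      linarith
    · have a6 : max (R'' * ‖M.wt j‖) (M.hl R η (w₂ (M.ray i)) j) ≤ R'' * ‖M.wt j‖ := by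
        refine max_le le_rfl ?_
        have := mul_le_mul_of_nonneg_left a1 p1
        have := mul_le_mul_of_nonneg_left h.gap n0
        have := mul_le_mul_of_nonneg_left r1 n0
        have : 0 ≤ η * R * γ * ‖M.wt j‖ := by positivity
        rw [e1]
        linarith
      linarith

end Vale.Agent.P188.Geo
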