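import Vale.Agent.P188.B.CoreA

/-! Deterministic core of the sibling move, part (b) and conclusion.
Plan for `core_b` (`s' = w₂ s`, `Δ` as in CoreA, `‖Δ‖ ≤ C' ρ` by `core_a`).  Use the base point
`x₀ = φ x₂` in `vol_transfer`.  `b₀⁻¹ = e₃ ζ₃` (`nf_of_ln`).  For `(y, τ) ∈ Gd` and
`z = Ad ζ⁻¹ (y g τ)`: `φ (x₁ z) = φ x₂ * x * ζ₂` with `x ∈ K r₂`, `‖A ζ₂‖ ≤ t`, and also
`φ (x₁ z) = φ x₂ * e₃ * Ad ζ₃ x' * e₄ * ζ₄` with `x' ∈ K r₁`, `e₄ ∈ K (fun _ => C ρ)`; the two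
normal forms differ by `ζ₄ ζ₂⁻¹ ∈ e ∩ Z poly` (`e_inter_Z`).  So `x` lies in
`D = K r₂ ∩ {e₃} * (K r * (C • K (fun _ => C ρ)))` with `r = hb (Δ - R'' s') R'' + C t`
(`Ad_Z_K`, `A ζ₃ = - A b₀`; `log (2 + C ρ) ≤ C t`).  `Y` = measurable set of `u` in the compact set
`K r₃ * {g} * K hl` with displacement of `Ad ζ⁻¹ u` in `D * Z (R ^ 3)` and height `≤ t`.
`prod_lb` (direction `s`, `τ₁ = R''`, `τ₂ = (1 + 2η) R`), `vol_transfer`, and `ub` after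
translating by `e₃⁻¹` (direction `s'`, `τ = ⟪s', Δ⟫`, `τQ = (1 + 2η) R - R''`; `0 ≤ r₂` because
`A ζ ∈ OmP`).  `core`: for a generator weight on the ray `s'` use `nu_pos` (finitely many values)
and `core_b`; off the ray `core_a`; then `gen_span`. -/

namespace Vale.Agent.P188.Geo
open scoped InnerProductSpace Pointwise
open MeasureTheory
variable (M : Geo)

theorem cb_nf (K C : ℝ) (hK : 0 ≤ K) (hC : 0 ≤ C) : ∃ a : ℝ, 1 ≤ a ∧ ∀ ρ : ℝ, 1 ≤ ρ → ∀ g : M.G,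
    M.ln g ≤ K * ρ + C → ∃ x ∈ M.K (fun _ => a * ρ), ∃ ζ ∈ M.Z (a * ρ), ‖M.A ζ‖ ≤ a * ρ ∧
      g = x * ζ := by
  obtain ⟨C1, c1, h1⟩ := M.nf_of_ln
  obtain ⟨C2, c2, h2⟩ := M.Z_A
  have c3 : 1 ≤ C1 * (K + C + 1) := one_le_mul_of_one_le_of_one_le c1 (by linarith)
  refine ⟨C2 * (C1 * (K + C + 1)), one_le_mul_of_one_le_of_one_le c2 c3, fun ρ hρ g hg => ?_⟩
  obtain ⟨x, hx, ζ, hζ, rfl⟩ := h1 g _ hg
  have p0 : 0 ≤ C1 * (K * ρ + C + 1) := by positivity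
  have p1 : C1 * (K * ρ + C + 1) ≤ C1 * (K + C + 1) * ρ := by
    rw [mul_assoc]
    gcongr
    nlinarith
  have p2 : C2 * (C1 * (K * ρ + C + 1)) ≤ C2 * (C1 * (K + C + 1)) * ρ := by
    rw [mul_assoc C2]
    gcongr
  have p3 := (le_mul_of_one_le_left p0 c2).trans p2
  exact ⟨x, M.K_mono (fun _ _ => p3) hx, ζ, M.Z_mono p0 p3 hζ, (h2 _ p0 ζ hζ).2.trans p2, rfl⟩

theorem cb_one {R t : ℝ} (hR : 1 ≤ R) (ht : Real.log (2 + R ^ 3) ≤ t) : 1 ≤ t := by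
  refine le_trans ((Real.le_log_iff_exp_le (by positivity)).2 ?_) ht
  linarith [Real.exp_one_lt_d9, one_le_pow₀ hR (n := 3)]

theorem cb_wv (v : M.V) (j) : |M.wv v j| ≤ M.wmax * ‖v‖ :=
  (abs_real_inner_le_norm _ _).trans (mul_le_mul_of_nonneg_right (M.norm_wt_le j) (norm_nonneg _))

theorem cb_mem (a : ℝ) (ha : 1 ≤ a) : ∃ q C₁ : ℝ, 1 ≤ q ∧ 1 ≤ C₁ ∧
    ∀ (R ρ t : ℝ) (r : Fin M.d → ℝ) (e₃ ζ₃ x' ζ₁ e₅ ζ₅ x ζ₂ : M.G), M.WtFun r → 1 ≤ R → ρ ≤ R →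
      Real.log (2 + R ^ 3) ≤ t → t ≤ ρ → e₃ ∈ M.e → ζ₃ ∈ M.Z (a * ρ) → ‖M.A ζ₃‖ ≤ a * ρ →
      x' ∈ M.K r → ζ₁ ∈ M.Z (R ^ 3) → ‖M.A ζ₁‖ ≤ t → e₅ ∈ M.K (fun _ => a * ρ) →
      ζ₅ ∈ M.Z (a * ρ) → x ∈ M.e → ζ₂ ∈ M.Z (R ^ 3) → x * ζ₂ = e₃ * ζ₃ * (x' * ζ₁) * (e₅ * ζ₅) →
      x ∈ {e₃} * (M.K (fun j => r j + M.wv (M.A ζ₃) j + q * t) * (C₁ • M.K (fun _ => q * ρ))) := by
  obtain ⟨C1, c1, h1⟩ := M.mul_mem 1 zero_le_one
  obtain ⟨C2, c2, h2⟩ := M.Z_prod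
  obtain ⟨C3, c3, h3⟩ := M.Ad_Z_K
  obtain ⟨C4, c4, h4⟩ := M.e_inter_Z
  have w0 := M.wmax_nonneg
  obtain ⟨b, hb⟩ : ∃ b, b = C2 * a * 4 := ⟨_, rfl⟩
  have b1 : a ≤ b := by nlinarith
  have b2 : 0 ≤ C3 * b := mul_nonneg (by linarith) (by linarith)
  have b3 : 0 ≤ C4 * b := mul_nonneg (by linarith) (by linarith)
  have b4 : 0 ≤ M.wmax * (a + 1) := by positivity
  refine ⟨a + M.wmax * (a + 1) + C3 * b + C4 * b, C1, by linarith, c1,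
    fun R ρ t r e₃ ζ₃ x' ζ₁ e₅ ζ₅ x ζ₂ hr hR hρ ht htρ m3 z3 a3 m' z1 a1 m5 z5 mx z2 e => ?_⟩
  have t1 := cb_one hR ht
  have R3 : R ≤ R ^ 3 := le_self_pow₀ hR three_ne_zero
  have p0 : 0 ≤ a * R ^ 3 := by positivity
  have p1 : 0 ≤ b * R ^ 3 := mul_nonneg (by linarith) (by positivity)
  have p2 : Real.log (2 + b * R ^ 3) ≤ b * t := by
    refine (Real.log_le_log (by linarith) (by nlinarith : _ ≤ b * (2 + R ^ 3))).trans ?_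
    rw [Real.log_mul (by linarith) (by positivity)]
    nlinarith [Real.log_le_sub_one_of_pos (by linarith : 0 < b)]
  have u1 : M.Z (a * ρ) ⊆ M.Z (a * R ^ 3) := M.Z_mono (by nlinarith) (by gcongr; linarith)
  have u2 : M.Z (R ^ 3) ⊆ M.Z (a * R ^ 3) := M.Z_mono (by positivity) (by nlinarith)
  have z6 : ζ₃ * ζ₁ ∈ M.Z (b * R ^ 3) := by
    have h5 := h2 _ [ζ₃, ζ₁] p0 (by simp [u1 z3, u2 z1])
    simp only [List.prod_cons, List.prod_nil, mul_one, List.length_cons, List.length_nil] at h5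
    refine M.Z_mono (by positivity) ?_ h5
    push_cast
    nlinarith
  have z7 : ζ₃ * ζ₁ * ζ₅ * ζ₂⁻¹ ∈ M.Z (b * R ^ 3) := by
    have h5 := h2 _ [ζ₃, ζ₁, ζ₅, ζ₂⁻¹] p0 (by simp [u1 z3, u2 z1, u1 z5, u2 (M.Z_inv z2)])
    simp only [List.prod_cons, List.prod_nil, mul_one, List.length_cons, List.length_nil,
      ← mul_assoc] at h5
    refine M.Z_mono (by positivity) (le_of_eq ?_) h5
    push_cast
    rw [hb]
    ring
  have k1 := h3 _ r p1 hr ζ₃ (M.Z_mono p0 (by gcongr) (u1 z3)) ⟨x', m', rfl⟩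
  have k2 := h3 _ _ p1 (fun _ _ _ => rfl) _ z6 ⟨e₅, m5, rfl⟩
  have e1 : x = e₃ * (M.Ad ζ₃ x' * (M.Ad (ζ₃ * ζ₁) e₅ * (ζ₃ * ζ₁ * ζ₅ * ζ₂⁻¹))) := by
    rw [← M.conj_eq (Or.inr (M.Z_sub_u0 _ z3)), ← M.conj_eq (Or.inr (M.Z_sub_u0 _ z6)),
      eq_mul_inv_of_mul_eq e]
    group
  have k3 : ζ₃ * ζ₁ * ζ₅ * ζ₂⁻¹ ∈ M.e := by
    have h5 := M.mul_mem_e (M.inv_mem_e (M.K_sub_e _ k2)) (M.mul_mem_e (M.inv_mem_e
      (M.K_sub_e _ k1)) (M.mul_mem_e (M.inv_mem_e m3) mx))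
    rwa [e1, inv_mul_cancel_left, inv_mul_cancel_left, inv_mul_cancel_left] at h5
  have q1 := mul_le_mul_of_nonneg_left p2 (zero_le_one.trans c3)
  have q2 := mul_le_mul_of_nonneg_left p2 (zero_le_one.trans c4)
  have q3 := mul_le_mul_of_nonneg_left htρ b2
  have q4 := mul_le_mul_of_nonneg_left htρ b3
  refine ⟨e₃, rfl, _, ⟨_, M.K_mono (fun j _ => ?_) k1, _, h1 _ (M.K_isLB _) (M.K_tame _) _
    (M.lb_one (M.K_mono (fun j _ => ?_) k2)) _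
    (M.lb_one (M.K_mono (fun j _ => ?_) (h4 _ p1 _ z7 k3))), rfl⟩, e1.symm⟩
  · nlinarith [mul_nonneg b4 (zero_le_one.trans t1), mul_nonneg b3 (zero_le_one.trans t1)]
  · have h5 := (le_abs_self _).trans (M.cb_wv (M.A (ζ₃ * ζ₁)) j)
    have h6 : ‖M.A (ζ₃ * ζ₁)‖ ≤ (a + 1) * ρ := by
      rw [M.A_mul]
      linarith [norm_add_le (M.A ζ₃) (M.A ζ₁)]
    nlinarith [mul_le_mul_of_nonneg_left h6 w0, mul_nonneg b3 (zero_le_one.trans t1)]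
  · nlinarith [mul_nonneg b4 (zero_le_one.trans (t1.trans htρ)),
      mul_nonneg b2 (zero_le_one.trans t1)]

theorem cb_ray {s : M.V} {j} (h : M.OnRay s j) (v : M.V) :
    ⟪M.wt j, v⟫_ℝ = ‖M.wt j‖ * ⟪s, v⟫_ℝ := by
  rw [← real_inner_smul_left, ← h.2]

theorem cb_self {s : M.V} (hs : ‖s‖ = 1) {j} (h : M.OnRay s j) (a : ℝ) :
    ⟪M.wt j, a • s⟫_ℝ = a * ‖M.wt j‖ := by
  rw [M.cb_ray h, real_inner_smul_right, real_inner_self_eq_norm_sq, hs]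
  ring

theorem cb_vol (C₀ q : ℝ) (h : 1 ≤ C₀) (hq : 1 ≤ q) : ∃ c₀ C : ℝ, 0 < c₀ ∧ 1 ≤ C ∧
    ∀ w ∈ M.W, ∀ (i : Fin M.d) (R R'' η ρ t : ℝ) (Δ : M.V) (g : M.G), M.wt i ≠ 0 → g ∈ M.e →
      R / 2 ≤ R'' → R'' ≤ R → 0 ≤ η → 0 ≤ t → t ≤ ρ → ρ ≤ c₀ * R → ‖Δ‖ ≤ q * ρ →
      M.mE.real (((C₀ • M.K fun j => M.hb (Δ - R'' • w (M.ray i)) R'' j + q * t) *
        (C₀ • M.K fun _ => (M.wmax + 1) * q * ρ)) ∩ ({g} * (C₀ • M.K fun j =>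
          max (M.hb 0 R'' j) (M.hl R η (w (M.ray i)) j) - M.wv (R'' • w (M.ray i)) j + q * t))) ≤
        C * Real.exp (M.Phi (M.hb 0 R'') + M.nu (w (M.ray i)) *
          ((1 + 2 * η) * R - R'' - ⟪w (M.ray i), Δ⟫_ℝ) + C * t) := by
  obtain ⟨C1, c1, h1⟩ := M.ub C₀ h
  obtain ⟨γ, g0, -, h2⟩ := M.angle_gap
  obtain ⟨m, m0, h3⟩ := M.exists_wmin
  have w0 := M.wmax_nonneg
  have p0 : 0 < (2 * M.c + 1) * ((M.wmax + 1) * q) := by positivity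
  have dc : (0 : ℝ) ≤ M.d * M.c := by positivity
  have p1 : C1 ≤ (C1 + M.d * M.c) * q := by nlinarith
  refine ⟨γ * m / 2 / ((2 * M.c + 1) * ((M.wmax + 1) * q)), (C1 + M.d * M.c) * q, by positivity,
    c1.trans p1, fun w hw i R R'' η ρ t Δ g hi hg hR hR' hη ht htρ hρ hΔ => ?_⟩
  have hs : ‖w (M.ray i)‖ = 1 := by rw [w.norm_map, M.norm_ray hi]
  have h2' := fun j => h2 w hw i j hi
  change ∀ j, _ → M.OnRay (w (M.ray i)) j ∨ ⟪M.wt j, w (M.ray i)⟫_ℝ ≤ _ at h2'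
  generalize w (M.ray i) = s at *
  have r0 : 0 ≤ R'' := by linarith
  have ρ0 : 0 ≤ q * ρ := mul_nonneg (by linarith) (ht.trans htρ)
  have t0 : 0 ≤ q * t := mul_nonneg (by linarith) ht
  have t1 : q * t ≤ q * ρ := by gcongr
  have d1 : ∀ j, |⟪M.wt j, Δ⟫_ℝ| ≤ M.wmax * (q * ρ) := fun j =>
    (M.cb_wv Δ j).trans (mul_le_mul_of_nonneg_left hΔ w0)
  have e1 : ∀ j, M.hb (Δ - R'' • s) R'' j =
      ⟪M.wt j, Δ⟫_ℝ + R'' * (‖M.wt j‖ - ⟪M.wt j, s⟫_ℝ) := fun j => by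
    rw [hb, inner_sub_right, real_inner_smul_right]
    ring
  have e2 : ∀ j, M.OnRay s j → ‖M.wt j‖ - ⟪M.wt j, s⟫_ℝ = 0 := fun j hj => by
    simpa [sub_eq_zero] using (M.cb_self hs hj 1).symm
  refine (h1 s _ _ _ ⟪s, Δ⟫_ℝ ((1 + 2 * η) * R - R'') (q * t) g hs (by nlinarith) t0 hg
    (fun j _ => ?_) (fun j hj => ?_) (fun j hj hj' => ?_) (fun j hj => ?_)
    fun j hj => ?_).trans ?_
  · have h4 : ⟪M.wt j, s⟫_ℝ ≤ ‖M.wt j‖ := by simpa [hs] using real_inner_le_norm (M.wt j) s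
    rw [e1]
    linarith [neg_abs_le ⟪M.wt j, Δ⟫_ℝ, d1 j, mul_nonneg r0 (sub_nonneg.2 h4)]
  · rw [e1, e2 j hj]
    linarith [le_abs_self ⟪M.wt j, Δ⟫_ℝ, d1 j]
  · have h4 : γ * m ≤ ‖M.wt j‖ - ⟪M.wt j, s⟫_ℝ := by
      linarith [(h2' j hj).resolve_left hj', mul_le_mul_of_nonneg_left (h3 j hj) g0.le]
    have h5 := mul_le_mul hR h4 (by positivity) r0
    rw [div_mul_eq_mul_div, le_div_iff₀ p0] at hρ
    rw [e1]
    linarith [neg_abs_le ⟪M.wt j, Δ⟫_ℝ, d1 j]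
  · rw [e1, e2 j hj, M.cb_ray hj]
    linarith
  · simp only [hl, hb, wv, M.cb_self hs hj, inner_zero_right]
    have h4 := mul_nonneg (mul_nonneg hη (r0.trans hR')) (norm_nonneg (M.wt j))
    rw [max_eq_right (by linarith [mul_le_mul_of_nonneg_right hR' (norm_nonneg (M.wt j))])]
    linarith
  · have h4 := M.Phi_le_add (r := M.hb (Δ - R'' • s) R'') t0
      (r' := fun j => M.hb (Δ - R'' • s) R'' j + q * t) fun _ _ => le_rfl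
    rw [M.Phi_hb] at h4
    gcongr ?_ * Real.exp ?_
    linarith

theorem cb_incl {C1 C3 : ℝ} (c1 : 1 ≤ C1) (c3 : 1 ≤ C3)
    (h3 : ∀ S, M.IsLB S → M.Tame S → ∀ x ∈ C1 • S, ∀ y ∈ C1 • S, x * y ∈ C3 • S)
    {r₂ r r₀ rk r' r₀' rQ : Fin M.d → ℝ} {g : M.G} (hg : g ∈ M.e) (a1 : ∀ j, r j ≤ r' j)
    (a2 : ∀ j, r₀ j ≤ r₀' j) (a3 : ∀ j, rk j ≤ r₀' j) (a4 : ∀ j, r₂ j ≤ rQ j)
    (a5 : ∀ j, rk j ≤ rQ j) :
    (M.mE ((M.K r₂ ∩ ({g} * (M.K r * (C1 • M.K r₀)))) * M.K rk)).toReal ≤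
      M.mE.real (((C3 • M.K r') * (C3 • M.K r₀')) ∩ ({g⁻¹} * (C3 • M.K rQ))) := by
  rw [← M.mE_preimage_mul_left hg]
  refine measureReal_mono ?_ ((((M.K_isLB _).compact.smul C3).mul
    ((M.K_isLB _).compact.smul C3)).inter (isCompact_singleton.mul
      ((M.K_isLB _).compact.smul C3))).measure_ne_top (μ := subMu M.e)
  rintro u ⟨x, ⟨mx, g', rfl, _, ⟨y, my, z, mz, rfl⟩, ex⟩, k, mk, e⟩
  replace ex : g' * (y * z) = x := ex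
  replace e : x * k = g' * u := e
  exact ⟨⟨y, (M.K_isLB _).sc.subset_smul c3 (M.K_mono (fun j _ => a1 j) my), z * k,
    h3 _ (M.K_isLB _) (M.K_tame _) _ (Set.smul_set_mono (M.K_mono fun j _ => a2 j) mz) _
      ((M.K_isLB _).sc.subset_smul c1 (M.K_mono (fun j _ => a3 j) mk)),
    mul_left_cancel (a := g') (by rw [← e, ← ex]; group)⟩, _, rfl, x * k,
    h3 _ (M.K_isLB _) (M.K_tame _) _ ((M.K_isLB _).sc.subset_smul c1
      (M.K_mono (fun j _ => a4 j) mx)) _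
      ((M.K_isLB _).sc.subset_smul c1 (M.K_mono (fun j _ => a5 j) mk)), inv_mul_eq_of_eq_mul e⟩

theorem core_b (K C : ℝ) : ∃ c₀ C' : ℝ, 0 < c₀ ∧ 1 ≤ C' ∧
    ∀ φ i R R'' η ρ t x₁ x₂ ζ g w₁ w₂ Gd, M.MQI K C φ → 1 ≤ R → ρ ≤ c₀ * R →
      M.Core φ i R R'' η ρ t x₁ x₂ ζ g w₁ w₂ Gd → M.nu (w₂ (M.ray i)) = M.nu (M.ray i) →
      M.nu (w₂ (M.ray i)) *
        ⟪w₂ (M.ray i), (M.A (φ x₁) - w₁ (M.A ζ)) - (M.A (φ x₂) - w₂ (M.A ζ))⟫_ℝ ≤ C' * t := by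
  by_cases hKC : 1 ≤ K ∧ 0 ≤ C
  swap
  · exact ⟨1, 1, one_pos, le_rfl, fun _ _ _ _ _ _ _ _ _ _ _ _ _ _ h =>
      absurd ⟨h.2.1, h.2.2.1⟩ hKC⟩
  obtain ⟨ca, Ca, ca0, ca1, hA⟩ := M.core_a K C
  obtain ⟨a, a1, hN⟩ := M.cb_nf K C (by linarith [hKC.1]) hKC.2
  obtain ⟨q, C1, q1, c1, hM⟩ := M.cb_mem a a1
  obtain ⟨C2, c2, hT⟩ := M.vol_transfer K C
  obtain ⟨C3, c3, h3⟩ := M.mul_mem C1 (by linarith)
  obtain ⟨q', hq⟩ : ∃ q', q' = 1 + q + Ca + 2 * C2 := ⟨_, rfl⟩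
  obtain ⟨cv, C4, cv0, c4, hV⟩ := M.cb_vol C3 q' c3 (by linarith)
  obtain ⟨C5, c5, hP⟩ := M.prod_lb
  have dc : (0 : ℝ) ≤ M.d * M.c := by positivity
  refine ⟨min (min ca cv) 1, C5 * C4 + M.d * M.c + C5 + C2 + C4, by positivity,
    by linarith [mul_pos (one_pos.trans_le c5) (one_pos.trans_le c4)],
    fun φ i R R'' η ρ t x₁ x₂ ζ g w₁ w₂ Gd hφ hR hρ H hν => ?_⟩
  have hρ' : ∀ c, min (min ca cv) 1 ≤ c → ρ ≤ c * R := fun c hc => hρ.trans (by gcongr)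
  have hΔ := (hA φ i R R'' η ρ t x₁ x₂ ζ g w₁ w₂ Gd hφ hR
    (hρ' _ ((min_le_left _ _).trans (min_le_left _ _))) H).1
  have t1 := cb_one hR H.ht
  have ρ1 := t1.trans H.htρ
  have r0 : 0 ≤ R'' := by linarith [H.hR]
  have w0 := M.wmax_nonneg
  have hs := M.norm_ray H.hi
  have hs' : ‖w₂ (M.ray i)‖ = 1 := by rw [w₂.norm_map, hs]
  have hw : w₂ (M.A ζ) = R'' • w₂ (M.ray i) := by rw [H.hζ, map_smul]
  obtain ⟨e₃, m3, ζ₃, z3, a3, e3⟩ := hN ρ ρ1 ((φ x₂)⁻¹ * φ x₁) (by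
    have := IsQI.ln_le M hφ.2 x₂ (x₂⁻¹ * x₁)
    rw [mul_inv_cancel_left, ← M.ln_inv (x₂⁻¹ * x₁), mul_inv_rev, inv_inv] at this
    exact this.trans (by gcongr; exacts [by linarith [hKC.1], H.near]))
  have A3 : M.A ζ₃ = M.A (φ x₁) - M.A (φ x₂) := by
    have := congrArg M.A e3
    rw [M.A_mul, M.A_mul, M.A_inv, M.A_e (M.K_sub_e _ m3), zero_add] at this
    rw [← this, neg_add_eq_sub]
  set Δ := M.A (φ x₁) - w₁ (M.A ζ) - (M.A (φ x₂) - w₂ (M.A ζ)) with hD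
  set r₂ := fun j => M.h (w₂ '' M.OmP R'' R η (M.ray i)) j - M.wv (w₂ (M.A ζ)) j + t with hr₂
  set D := M.K r₂ ∩ ({e₃} * (M.K (fun j => M.hb (-w₁ (M.A ζ)) R'' j + t + M.wv (M.A ζ₃) j + q * t) *
    (C1 • M.K fun _ => q * ρ))) with hDD
  have Dc : IsCompact D := (M.K_isLB _).compact.inter (isCompact_singleton.mul
    ((M.K_isLB _).compact.mul ((M.K_isLB _).compact.smul C1)))
  have De : D ⊆ M.e := fun x hx => M.K_sub_e _ hx.1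
  set Y : Set M.G := (M.e : Set M.G) ∩ {z | (φ x₂)⁻¹ * φ (x₁ * z) ∈ D * M.Z (R ^ 3) ∧
    ‖M.A ((φ x₂)⁻¹ * φ (x₁ * z))‖ ≤ t} with hY
  have Ym : MeasurableSet Y := by
    have m : Measurable fun z => (φ x₂)⁻¹ * φ (x₁ * z) :=
      (hφ.1.comp (measurable_const_mul x₁)).const_mul _
    exact M.e.closed_of_finiteDimensional.measurableSet.inter
      ((m (Dc.mul (M.Z_isLB _).compact).measurableSet).inter
        (measurableSet_le (M.lie_cA.measurable.comp m).norm measurable_const))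
  have v1 := hT φ hφ.2 x₁ (φ x₂) Y D (R ^ 3) t Ym Set.inter_subset_left De (by positivity)
    (by linarith) (by
      rintro z ⟨-, ⟨x, hx, ζ₂, z2, e⟩, h⟩
      refine ⟨x, hx, ζ₂, z2, ?_, by rw [mul_assoc, show x * ζ₂ = _ from e, mul_inv_cancel_left]⟩
      rwa [← show x * ζ₂ = _ from e, M.A_mul, M.A_e (De hx), zero_add] at h)
  have f1 : M.mE (D * M.K fun _ => C2 * (t + Real.log (2 + R ^ 3))) ≠ ⊤ :=
    (Dc.mul (M.K_isLB _).compact).measure_ne_top (μ := subMu M.e)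
  have f2 := ENNReal.mul_ne_top (ENNReal.ofReal_ne_top
    (r := Real.exp (C2 * Real.log (2 + R ^ 3)))) f1
  have v2 := ENNReal.toReal_mono f2 v1
  rw [ENNReal.toReal_mul, ENNReal.toReal_ofReal (Real.exp_pos _).le] at v2
  have cA : Measurable (M.Ad ζ⁻¹) := (M.Ad ζ⁻¹).continuous_of_finiteDimensional.measurable
  have v3 : M.mE (M.Ad ζ⁻¹ ⁻¹' Y) = M.mE Y := by rw [← Measure.map_apply cA Ym, M.map_Ad_e]
  have v4 := hP (M.ray i) (fun j => M.hb 0 R'' j - t) (M.hl R η (M.ray i)) R'' ((1 + 2 * η) * R) t g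
    _ hs (by linarith) H.hg (cA Ym) (v3 ▸ ne_top_of_le_ne_top f2 v1)
    (fun j _ => by simp only [hb, inner_zero_right]; linarith)
    (fun j hj => by simp only [hl, hb, M.cb_self hs hj]; linarith) (by
      refine le_trans (mul_le_mul_of_nonneg_right (by norm_num) (by positivity))
        (H.big.trans (measureReal_mono (fun p hp => ?_) ?_))
      · obtain ⟨k1, k2⟩ := H.sub hp
        have k3 := M.K_sub_e _ k1
        have k4 := M.mul_mem_e H.hg (M.K_sub_e _ k2)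
        obtain ⟨⟨x', m', ζ₁, z1, e1⟩, b1⟩ := H.c1 p hp
        obtain ⟨⟨x, mx, ζ₂, z2, e2⟩, b2⟩ := H.c2 p hp
        replace e1 : x' * ζ₁ = _ := e1
        replace e2 : x * ζ₂ = _ := e2
        have k5 := M.mul_mem_e k3 k4
        obtain ⟨e₅, m5, ζ₅, z5, -, e5⟩ := hN ρ ρ1 _ ((IsQI.ln_le M hφ.2 (x₁ * M.Ad ζ⁻¹ p.1)
          (M.Ad ζ⁻¹ (g * p.2))).trans (by gcongr; exacts [by linarith [hKC.1], H.near' _ k2]))
        have e4 : M.Ad ζ⁻¹ (p.1 * g * p.2) = M.Ad ζ⁻¹ p.1 * M.Ad ζ⁻¹ (g * p.2) := by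
          rw [mul_assoc, ← M.conj_eq (Or.inl (M.A_e k5)), ← M.conj_eq (Or.inl (M.A_e k3)),
            ← M.conj_eq (Or.inl (M.A_e k4))]
          group
        refine ⟨k1, k2, M.Ad_mem_e _ (by rwa [mul_assoc]), ⟨x, ⟨mx, ?_⟩, ζ₂, z2, e2⟩, b2⟩
        refine hM R ρ t _ e₃ ζ₃ x' ζ₁ e₅ ζ₅ x ζ₂ (fun j k h => by rw [M.hb_wtFun _ _ j k h]) hR
          (by simpa using hρ' 1 (min_le_right _ _)) H.ht H.htρ (M.K_sub_e _ m3) z3 a3 m' z1 ?_ m5 z5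
          (M.K_sub_e _ mx) z2 ?_
        · rwa [← e1, M.A_mul, M.A_e (M.K_sub_e _ m'), zero_add] at b1
        · rw [e1, e2, ← e3, ← e5, e4, mul_assoc x₁]
          group
      · have : IsFiniteMeasureOnCompacts M.mE :=
          inferInstanceAs (IsFiniteMeasureOnCompacts (subMu M.e))
        have : SFinite M.mE := inferInstanceAs (SFinite (subMu M.e))
        refine ne_top_of_le_ne_top (((M.K_isLB _).compact.prod (M.K_isLB _).compact).measure_ne_top)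
          (measure_mono fun p hp => ⟨hp.1, hp.2.1⟩))
  have v5 := hV w₂ H.hw₂ i R R'' η ρ t Δ e₃⁻¹ H.hi (M.inv_mem_e (M.K_sub_e _ m3)) H.hR H.hR' H.hη
    (by linarith) H.htρ (hρ' _ ((min_le_left _ _).trans (min_le_right _ _)))
    (hΔ.trans (by gcongr; linarith))
  have l0 := mul_le_mul_of_nonneg_left H.ht (zero_le_one.trans c2)
  have l1 := mul_nonneg (zero_le_one.trans q1) (zero_le_one.trans t1)
  have l2 := mul_nonneg (zero_le_one.trans ca1) (zero_le_one.trans t1)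
  have l3 := mul_nonneg (zero_le_one.trans c2) (zero_le_one.trans t1)
  have l4 : q' * t = t + q * t + Ca * t + 2 * (C2 * t) := by rw [hq]; ring
  have l5 : q' * t ≤ q' * ρ := mul_le_mul_of_nonneg_left H.htρ (by linarith)
  have l6 : q' * ρ ≤ (M.wmax + 1) * q' * ρ := by
    rw [mul_assoc]
    exact le_mul_of_one_le_left (by linarith) (by linarith)
  have l7 : q * ρ ≤ q' * ρ := mul_le_mul_of_nonneg_right (by linarith) (by linarith)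
  have v6 := (M.cb_incl c1 c3 h3 (r₂ := r₂) (rk := fun _ => C2 * (t + Real.log (2 + R ^ 3)))
    (r := fun j => M.hb (-w₁ (M.A ζ)) R'' j + t + M.wv (M.A ζ₃) j + q * t) (r₀ := fun _ => q * ρ)
    (M.K_sub_e _ m3) (fun j => by
      simp only [hb, wv, hD, A3, hw, inner_sub_right, inner_neg_right]
      linarith) (fun j => l7.trans l6) (fun j => by linarith) (fun j => by
      simp only [hr₂, M.h_image_OmP r0 (mul_nonneg H.hη (zero_le_one.trans hR)), hw]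
      linarith) fun j => by
      have h4 : M.wv (R'' • w₂ (M.ray i)) j ≤ M.hb 0 R'' j := by
        simp only [wv, hb, inner_zero_right, zero_add, real_inner_smul_right]
        exact mul_le_mul_of_nonneg_left
          (by simpa [hs'] using real_inner_le_norm (M.wt j) (w₂ (M.ray i))) r0
      linarith [le_max_left (M.hb 0 R'' j) (M.hl R η (w₂ (M.ray i)) j)]).trans v5
  have v7 := M.Phi_le_add (r := fun j => M.hb 0 R'' j - t) (r' := M.hb 0 R'')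
    (zero_le_one.trans t1) fun _ _ => (sub_add_cancel _ _).ge
  rw [Measure.real, v3] at v4
  have v8 := v4.trans (mul_le_mul_of_nonneg_left (v2.trans (mul_le_mul_of_nonneg_left v6
    (Real.exp_pos _).le)) (by positivity))
  rw [mul_left_comm (Real.exp _), ← mul_assoc, ← Real.exp_add,
    ← Real.exp_log (by positivity : 0 < C5 * C4), ← Real.exp_add, Real.exp_le_exp, ← hν] at v8
  have v9 := Real.log_le_sub_one_of_pos (by positivity : 0 < C5 * C4)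
  linarith [le_mul_of_one_le_right (by positivity : 0 ≤ C5 * C4) t1]

theorem core (K C : ℝ) : ∃ c₀ C' : ℝ, 0 < c₀ ∧ 1 ≤ C' ∧
    ∀ φ i R R'' η ρ t x₁ x₂ ζ g w₁ w₂ Gd, M.MQI K C φ → 1 ≤ R → ρ ≤ c₀ * R →
      M.Core φ i R R'' η ρ t x₁ x₂ ζ g w₁ w₂ Gd → M.nu (w₂ (M.ray i)) = M.nu (M.ray i) →
      ‖(M.A (φ x₁) - w₁ (M.A ζ)) - (M.A (φ x₂) - w₂ (M.A ζ))‖ ≤ C' * t := by
  obtain ⟨ca, Ca, ca0, ca1, hA⟩ := M.core_a K C
  obtain ⟨cb, Cb, cb0, cb1, hB⟩ := M.core_b K C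
  obtain ⟨C1, c1, h1⟩ := M.gen_span
  have w0 := M.wmax_nonneg
  obtain ⟨N, N0, hN⟩ : ∃ N : ℝ, 0 ≤ N ∧ ∀ j, (M.nu (M.ray j))⁻¹ ≤ N :=
    ⟨∑ j, |(M.nu (M.ray j))⁻¹|, by positivity, fun j => (le_abs_self _).trans
      (Finset.single_le_sum (f := fun j => |(M.nu (M.ray j))⁻¹|) (fun _ _ => abs_nonneg _)
        (Finset.mem_univ j))⟩
  have p0 : 0 ≤ M.wmax * (N * Cb) := by positivity
  refine ⟨min ca cb, C1 * (Ca + M.wmax * (N * Cb)), lt_min ca0 cb0,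
    one_le_mul_of_one_le_of_one_le c1 (by linarith),
    fun φ i R R'' η ρ t x₁ x₂ ζ g w₁ w₂ Gd hφ hR hρ H hν => ?_⟩
  have t0 := zero_le_one.trans (cb_one hR H.ht)
  have h2 := (hA φ i R R'' η ρ t x₁ x₂ ζ g w₁ w₂ Gd hφ hR
    (hρ.trans (by gcongr; exact min_le_left _ _)) H).2
  have h3 := hB φ i R R'' η ρ t x₁ x₂ ζ g w₁ w₂ Gd hφ hR
    (hρ.trans (by gcongr; exact min_le_right _ _)) H hν
  rw [mul_assoc]
  refine h1 _ _ (by positivity) fun μ p hp => ?_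
  obtain ⟨j, hj, -⟩ := hp.exists_X M
  by_cases h4 : M.OnRay (w₂ (M.ray i)) j
  · have h5 := M.nu_pos hp hj
    have h6 := M.cb_ray h4 (M.A (φ x₁) - w₁ (M.A ζ) - (M.A (φ x₂) - w₂ (M.A ζ)))
    rw [h4.eq_ray M] at h3 h6
    have h7 := ((le_inv_mul_iff₀ h5).2 h3).trans
      (mul_le_mul_of_nonneg_right (hN j) (by positivity))
    rw [← hj, h6]
    refine (mul_le_mul_of_nonneg_left h7 (norm_nonneg _)).trans ?_
    nlinarith [mul_le_mul_of_nonneg_right (M.norm_wt_le j) (by positivity : 0 ≤ N * (Cb * t)),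
      mul_nonneg (zero_le_one.trans ca1) t0]
  · nlinarith [h2 j μ p hp hj h4, mul_nonneg p0 t0]

end Vale.Agent.P188.Geo
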