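import Vale.Agent.P188.B.Geom

/-! End of the sibling move: equal colours, then equal heights.
Plan: `R'' = (1 - D η) R`, `s = ray i`, `a = (1 - η) R''`, `b = √η R'' / 2`, test heights
`a • s` and `a • s + b • (e_j - s j • s)` (norm `≤ R''`, inner product with `s` equal to `a`),
positions `ι v` (`exists_sec`, `mem_Z`; choose `C₂`).  There the letter `t` has length
`≤ C (D η R + log ..)` (`ln_conj_letter`), so `A φ (l t ζ)` and `A φ (l ζ)` differ by at most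
`C D η R` (`A_lip`, `l t ζ = l ζ (ζ⁻¹ t ζ)`).  If `l` is `a1`-good for both data at the `k + 1`
tests and at `ζ₀`, and `m₁ (t⁻¹ l t) ≈ m₁' l`, then `eq_of_tests` (`C D η ≤ c √η / 4`) gives
`w₁ (t⁻¹ l t) = w₁' l`.  Union bound; `t⁻¹ l t = Ad t⁻¹ l`, `mE_image_Ad`, `map_Ad_e`. -/

namespace Vale.Agent.P188.Geo
open scoped InnerProductSpace Pointwise
open MeasureTheory
variable (M : Geo)

theorem fin_log (α β γ ρ : ℝ) (hβ : 0 ≤ β) (hγ : 0 < γ) (hρ : 0 ≤ ρ) :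
    ∃ S₀ : ℝ, ∀ R, S₀ ≤ R → 0 < R ∧ α + β * Real.log (2 + ρ * R) ≤ γ * R := by
  obtain ⟨κ, hκ⟩ : ∃ κ : ℝ, κ = γ / (2 * (β * ρ + 1)) := ⟨_, rfl⟩
  have h0 : 0 < β * ρ + 1 := by positivity
  have hκ0 : 0 < κ := by rw [hκ]; positivity
  have hκ1 : κ * (β * ρ + 1) = γ / 2 := by rw [hκ]; field_simp
  refine ⟨max 1 (2 * (α + 2 * β * κ - β * (Real.log κ + 1)) / γ), fun R hR => ?_⟩
  have h1 : 0 < R := one_pos.trans_le ((le_max_left _ _).trans hR)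
  have h2 := (div_le_iff₀ hγ).1 ((le_max_right _ _).trans hR)
  have h3 : 0 < 2 + ρ * R := by positivity
  have h4 := Real.log_le_sub_one_of_pos (mul_pos hκ0 h3)
  rw [Real.log_mul hκ0.ne' h3.ne'] at h4
  have h5 := mul_le_mul_of_nonneg_left h4 hβ
  have h6 : κ * (β * ρ + 1) * R = γ / 2 * R := by rw [hκ1]
  refine ⟨h1, ?_⟩
  nlinarith [mul_pos hκ0 h1]

theorem fin_bad {φ : M.G → M.G} {t : M.G} {Ω : Set M.V} {R C₂ ε δ : ℝ} {L : Set M.G}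
    (hL : M.IsLB L) (hLe : L ⊆ M.e) (hC : 1 ≤ C₂) {w₁ m₁ w₁' m₁'}
    (h1 : M.Aff0 (fun x => φ (t * x)) Ω R C₂ ε δ (M.Ad t⁻¹ '' L) w₁ m₁)
    (h2 : M.Aff0 φ Ω R C₂ ε δ L w₁' m₁') {ζ : M.G} (hζ : ζ ∈ M.Z (C₂ * R)) (hA : M.A ζ ∈ Ω) :
    M.mE.real (L ∩ {l | ε * R < ‖M.A (φ (l * t * ζ)) - w₁ (t⁻¹ * l * t) (M.A ζ) -
      m₁ (t⁻¹ * l * t)‖ ∨ ε * R < ‖M.A (φ (l * ζ)) - w₁' l (M.A ζ) - m₁' l‖}) ≤
      2 * δ * M.mE.real L := by
  have hL' := hL.image_Ad M t⁻¹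
  have a1 := h1.a1 ζ hζ hA
  have a2 := h2.a1 ζ hζ hA
  have e1 : ∀ S, M.mE.real (M.Ad t⁻¹ '' S) = M.mE.real S := fun S =>
    congrArg ENNReal.toReal (M.mE_image_Ad t⁻¹ S)
  have f1 : ∀ {S : Set M.G}, IsCompact S → ∀ T, M.mE (S ∩ T) ≠ ⊤ := fun hS T =>
    ((measure_mono Set.inter_subset_left).trans_lt (hS.measure_lt_top (μ := subMu M.e))).ne
  rw [e1] at a1
  rw [Set.ofPred_or, Set.inter_union_distrib_left]
  refine (measureReal_union_le _ _).trans ?_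
  have b2 := (measureReal_mono (Set.inter_subset_inter_left _ (hL.sc.subset_smul hC))
    (f1 (hL.compact.smul C₂) _)).trans a2
  have b1 : M.mE.real (L ∩ {l | ε * R < ‖M.A (φ (l * t * ζ)) - w₁ (t⁻¹ * l * t) (M.A ζ) -
      m₁ (t⁻¹ * l * t)‖}) ≤ δ * M.mE.real L := by
    rw [← e1]
    refine (measureReal_mono ?_ (f1 (hL'.compact.smul C₂) _)).trans a1
    rintro _ ⟨l, ⟨hl, hl'⟩, rfl⟩
    refine ⟨hL'.sc.subset_smul hC ⟨l, hl, rfl⟩, ?_⟩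
    have e2 := M.conj_eq (g := t⁻¹) (Or.inl (M.A_e (hLe hl)))
    rw [inv_inv] at e2
    have e3 : t * (t⁻¹ * l * t * ζ) = l * t * ζ := by group
    rw [Set.mem_ofPred_eq, ← e2, e3]
    exact hl'
  linarith

theorem fin_test {s : M.V} (hs : ‖s‖ = 1) (a b : ℝ) (j : Fin M.k) :
    ⟪s, a • s + b • (EuclideanSpace.single j 1 - s j • s)⟫_ℝ = a ∧
      ‖a • s + b • (EuclideanSpace.single j 1 - s j • s)‖ ^ 2 ≤ a ^ 2 + b ^ 2 := by
  have h1 : ⟪s, s⟫_ℝ = 1 := by rw [real_inner_self_eq_norm_sq, hs, one_pow]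
  have h2 : ⟪s, (EuclideanSpace.single j 1 : M.V)⟫_ℝ = s j := by
    simp [EuclideanSpace.inner_single_right]
  have h3 : ⟪s, (EuclideanSpace.single j 1 - s j • s : M.V)⟫_ℝ = 0 := by
    rw [inner_sub_right, real_inner_smul_right, h1, h2, mul_one, sub_self]
  have h4 : ‖(EuclideanSpace.single j 1 - s j • s : M.V)‖ ^ 2 ≤ 1 := by
    rw [norm_sub_sq_real, real_inner_smul_right, real_inner_comm, h2, norm_smul, hs]
    simp only [PiLp.norm_single, norm_one, Real.norm_eq_abs, mul_one, sq_abs]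
    nlinarith [sq_nonneg (s j)]
  refine ⟨by rw [inner_add_right, real_inner_smul_right, real_inner_smul_right, h1, h3]; ring, ?_⟩
  rw [norm_add_sq_real, real_inner_smul_left, real_inner_smul_right, h3, norm_smul, norm_smul, hs,
    mul_pow, mul_pow]
  simp only [Real.norm_eq_abs, sq_abs]
  nlinarith [sq_nonneg b]

theorem fin_tri {V : Type*} [NormedAddCommGroup V] {x y p q m m' : V} {e : ℝ}
    (h1 : ‖x - p - m‖ ≤ e) (h2 : ‖y - q - m'‖ ≤ e) (h3 : ‖m - m'‖ ≤ e) :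
    ‖p - q‖ ≤ ‖x - y‖ + 3 * e ∧ ‖x - y‖ ≤ ‖p - q‖ + 3 * e := by
  have h4 : ‖(x - y) - (p - q)‖ ≤ 3 * e := by
    have e1 : (x - y) - (p - q) = (x - p - m) - (y - q - m') + (m - m') := by abel
    rw [e1]
    linarith [norm_add_le ((x - p - m) - (y - q - m')) (m - m'),
      norm_sub_le (x - p - m) (y - q - m')]
  have h5 := abs_le.1 ((abs_norm_sub_norm_le (x - y) (p - q)).trans h4)
  exact ⟨by linarith [h5.1], by linarith [h5.2]⟩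

theorem fin_num {D q R R'' : ℝ} (hD : 1 ≤ D) (hq : 0 < q) (h : D * q ^ 2 ≤ 1 / 4) (hR : 0 < R)
    (hR'' : R'' = (1 - D * q ^ 2) * R) : q ≤ 1 / 2 ∧ R / 2 ≤ R'' ∧ R'' ≤ R ∧
      (1 + q ^ 2) * R - (1 - q ^ 2) * R'' ≤ 3 * D * q ^ 2 * R := by
  have hη := pow_pos hq 2
  have h1 : q ^ 2 ≤ 1 / 4 := by nlinarith
  subst hR''
  refine ⟨by nlinarith, by nlinarith,
    by nlinarith [mul_pos (mul_pos (one_pos.trans_le hD) hη) hR], ?_⟩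
  nlinarith [mul_pos hη hR, mul_pos (mul_pos (mul_pos (one_pos.trans_le hD) hη) hη) hR,
    mul_le_mul_of_nonneg_right hD (mul_pos hη hR).le]

theorem fin_v {s : M.V} (hs : ‖s‖ = 1) {q r c : ℝ} (hq0 : 0 < q) (hq1 : q ≤ 1 / 2) (hr : 0 < r)
    (hct : ∀ w ∈ M.W, ∀ w' ∈ M.W, ∀ (s : M.V) (a b E : ℝ), ‖s‖ = 1 →
      0 < b → b ≤ a → E ≤ c * b → ‖w (a • s) - w' (a • s)‖ ≤ E →
      (∀ j : Fin M.k, ‖w (a • s + b • (EuclideanSpace.single j 1 - s j • s)) -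
        w' (a • s + b • (EuclideanSpace.single j 1 - s j • s))‖ ≤ E) → w = w') :
    ∃ v : Option (Fin M.k) → M.V, (∀ o, ⟪s, v o⟫_ℝ = (1 - q ^ 2) * r ∧ ‖v o‖ ≤ r) ∧
      ∀ w ∈ M.W, ∀ w' ∈ M.W, (∀ o, ‖w (v o) - w' (v o)‖ ≤ c * (q * r / 2)) → w = w' := by
  have h1 : q ^ 2 ≤ 1 / 4 := by nlinarith
  refine ⟨fun o => o.elim (((1 - q ^ 2) * r) • s) fun j => ((1 - q ^ 2) * r) • s +
    (q * r / 2) • (EuclideanSpace.single j 1 - s j • s), fun o => ?_, fun w hw w' hw' h =>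
    hct w hw w' hw' s _ _ _ hs (by positivity) (by nlinarith) le_rfl (h none) fun j => h (some j)⟩
  cases o with
  | none =>
    simp only [Option.elim]
    rw [real_inner_smul_right, real_inner_self_eq_norm_sq, norm_smul, hs,
      Real.norm_of_nonneg (by nlinarith)]
    exact ⟨by ring, by nlinarith [pow_pos hq0 2]⟩
  | some j =>
    obtain ⟨a1, a2⟩ := M.fin_test hs ((1 - q ^ 2) * r) (q * r / 2) j
    refine ⟨a1, le_of_sq_le_sq (a2.trans ?_) hr.le⟩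
    have : (1 - q ^ 2) ^ 2 + q ^ 2 / 4 ≤ 1 := by nlinarith [pow_pos hq0 2]
    nlinarith [mul_le_mul_of_nonneg_right this (sq_nonneg r)]

theorem fin_union {φ : M.G → M.G} {t : M.G} {Ω : Set M.V} {R C₂ ε δ E : ℝ} {L : Set M.G}
    (hL : M.IsLB L) (hLe : L ⊆ M.e) (hC : 1 ≤ C₂) {w₁ m₁ w₁' m₁'}
    (h1 : M.Aff0 (fun x => φ (t * x)) Ω R C₂ ε δ (M.Ad t⁻¹ '' L) w₁ m₁)
    (h2 : M.Aff0 φ Ω R C₂ ε δ L w₁' m₁')
    (h3 : M.mE.real (L ∩ {l | ε * R < ‖m₁ (t⁻¹ * l * t) - m₁' l‖}) ≤ δ * M.mE.real L)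
    {ζ : M.G} (hζ : ζ ∈ M.Z (C₂ * R)) (hA : M.A ζ ∈ Ω) (p : Option (Fin M.k) → M.G)
    (hp : ∀ o, p o ∈ M.Z (C₂ * R)) (hpA : ∀ o, M.A (p o) ∈ Ω)
    (hE : ∀ o l, ‖M.A (φ (l * t * p o)) - M.A (φ (l * p o))‖ + 3 * (ε * R) ≤ E)
    (hW : ∀ w ∈ M.W, ∀ w' ∈ M.W, (∀ o, ‖w (M.A (p o)) - w' (M.A (p o))‖ ≤ E) → w = w') :
    M.mE.real (L ∩ {l | 3 * ε * R < ‖M.A (φ (l * t * ζ)) - M.A (φ (l * ζ))‖}) ≤
      (2 * M.k + 5) * δ * M.mE.real L := by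
  have b0 := M.fin_bad hL hLe hC h1 h2 hζ hA
  have b1 := fun o => M.fin_bad hL hLe hC h1 h2 (hp o) (hpA o)
  have b2 := (measureReal_iUnion_fintype_le _).trans (Finset.sum_le_sum fun o _ => b1 o)
  have b3 := (measureReal_union_le _ _).trans (add_le_add
    ((measureReal_union_le _ _).trans (add_le_add h3 b0)) b2)
  refine (measureReal_mono (fun l hl => ?_) ?_).trans (b3.trans_eq ?_)
  · by_contra hn
    simp only [Set.mem_union, Set.mem_iUnion, Set.mem_inter_iff, hl.1, true_and, Set.mem_ofPred_eq,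
      not_or, not_exists, not_lt] at hn
    obtain ⟨⟨n1, n2, n3⟩, n4⟩ := hn
    have n6 := hW _ (h1.memW _) _ (h2.memW _) fun o =>
      (fin_tri (n4 o).1 (n4 o).2 n1).1.trans (hE o l)
    have n7 := (fin_tri n2 n3 n1).2
    rw [n6, sub_self, norm_zero] at n7
    have n8 : 3 * ε * R < _ := hl.2
    linarith
  · refine ((measure_mono ?_).trans_lt (hL.compact.measure_lt_top (μ := subMu M.e))).ne
    exact Set.union_subset (Set.union_subset Set.inter_subset_left Set.inter_subset_left)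
      (Set.iUnion_subset fun _ => Set.inter_subset_left)
  · simp only [Finset.sum_const, Finset.card_univ, Fintype.card_option, Fintype.card_fin,
      nsmul_eq_mul]
    push_cast
    ring

theorem sib_fin (K C D : ℝ) (hD : 1 ≤ D) : ∃ η₀ : ℝ, 0 < η₀ ∧ ∀ η C₁ : ℝ, 0 < η → η ≤ η₀ →
    1 ≤ C₁ → ∃ C₂ S₀ : ℝ, C₁ ≤ C₂ ∧ ∀ ε δ R : ℝ, 0 < ε → ε ≤ η → 0 < δ → S₀ ≤ R →
      ∀ φ, M.MQI K C φ → ∀ i, M.wt i ≠ 0 → ∀ τ : ℝ,
      |τ| ≤ C₁ * Real.exp ((1 + η) * R * ‖M.wt i‖) → ∀ w₁ m₁ w₁' m₁',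
      M.Aff0 (fun x => φ (τ • M.X i * x)) (Metric.closedBall 0 ((1 - D * η) * R)) R C₂ ε δ
        (M.Ad (τ • M.X i)⁻¹ '' M.Lb η R) w₁ m₁ →
      M.Aff0 φ (Metric.closedBall 0 ((1 - D * η) * R)) R C₂ ε δ (M.Lb η R) w₁' m₁' →
      M.mE.real (M.Lb η R ∩ {l | ε * R < ‖m₁ ((τ • M.X i)⁻¹ * l * (τ • M.X i)) - m₁' l‖}) ≤
        δ * M.mE.real (M.Lb η R) →
      ∀ ζ ∈ M.Z (C₁ * R), ‖M.A ζ‖ ≤ (1 - D * η) * R →
        M.mE.real (M.Lb η R ∩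
          {l | 3 * ε * R < ‖M.A (φ (l * (τ • M.X i) * ζ)) - M.A (φ (l * ζ))‖}) ≤
          (2 * M.k + 5) * δ * M.mE.real (M.Lb η R) := by
  obtain ⟨c, hc, hct⟩ := M.eq_of_tests
  obtain ⟨Cl, hCl, hl⟩ := M.ln_conj_letter
  obtain ⟨Ca, hCa, hlip⟩ := M.A_lip K C
  obtain ⟨Cz, hCz, hz⟩ := M.mem_Z
  obtain ⟨ι, hι, hιA⟩ := M.exists_sec
  obtain ⟨Cι, hCι, hιn⟩ := (LinearMap.toContinuousLinearMap ι).bound
  have hw := M.wmax_nonneg
  obtain ⟨Q, hQ⟩ : ∃ Q : ℝ, Q = Ca * Cl * (3 * D * M.wmax) + 3 := ⟨_, rfl⟩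
  have hQ0 : 0 < Q := by rw [hQ]; positivity
  refine ⟨min (1 / (4 * D)) ((c / (8 * Q)) ^ 2), by positivity, fun η C₁ hη hη₀ hC₁ => ?_⟩
  have hη1 : D * η ≤ 1 / 4 := by
    have := (le_div_iff₀ (by positivity)).1 (hη₀.trans (min_le_left _ _))
    linarith
  obtain ⟨q, hq0, rfl⟩ : ∃ q : ℝ, 0 < q ∧ η = q ^ 2 :=
    ⟨√η, Real.sqrt_pos.2 hη, (Real.sq_sqrt hη.le).symm⟩
  have hq2 : q * (8 * Q) ≤ c := (le_div_iff₀ (by positivity)).1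
    (le_of_sq_le_sq (hη₀.trans (min_le_right _ _)) (by positivity))
  obtain ⟨C₂, hC₂⟩ : ∃ C₂ : ℝ, C₂ = max C₁ (Cz * Cι) := ⟨_, rfl⟩
  have hC1 : C₁ ≤ C₂ := hC₂ ▸ le_max_left _ _
  have hC2 : Cz * Cι ≤ C₂ := hC₂ ▸ le_max_right _ _
  have hC3 : 1 ≤ C₂ := hC₁.trans hC1
  obtain ⟨S₀, hS₀⟩ := fin_log (Ca * Cl * Real.log C₁ + Ca) (Ca * Cl) (c * q / 8) C₂
    (by positivity) (by positivity) (by linarith)
  refine ⟨C₂, S₀, hC1, fun ε δ R hε hεη hδ hR φ hφ i hi τ hτ w₁ m₁ w₁' m₁' h1 h2 h3 ζ hζ hζA => ?_⟩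
  obtain ⟨hR0, hR1⟩ := hS₀ R hR
  obtain ⟨R'', hR''⟩ : ∃ R'' : ℝ, R'' = (1 - D * q ^ 2) * R := ⟨_, rfl⟩
  obtain ⟨hq1, r1, r2, r3⟩ := fin_num hD hq0 hη1 hR0 hR''
  rw [← hR''] at h1 h2 hζA
  have hon := (M.onRay_ray hi).2
  obtain ⟨v, hv, hvW⟩ := M.fin_v (M.norm_ray hi) hq0 hq1 ((half_pos hR0).trans_le r1) hct
  have hvZ : ∀ o, ι (v o) ∈ M.Z (C₂ * R) := fun o => by
    refine M.Z_mono (by positivity) ?_ (hz _ (hι (v o)))
    have a1 : ‖ι (v o)‖ ≤ Cι * R :=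
      (hιn (v o)).trans (mul_le_mul_of_nonneg_left ((hv o).2.trans r2) hCι.le)
    have a2 := mul_le_mul_of_nonneg_left a1 (zero_le_one.trans hCz)
    have a3 := mul_le_mul_of_nonneg_right hC2 hR0.le
    linarith
  have hlog := Real.log_nonneg hC₁
  refine M.fin_union (M.Lb_isLB hη.le hR0.le) (M.Lb_sub_e _ _) hC3 h1 h2 h3
    (M.Z_mono (by positivity) (mul_le_mul_of_nonneg_right hC1 hR0.le) hζ)
    (mem_closedBall_zero_iff.2 hζA) (fun o => ι (v o)) hvZ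
    (fun o => mem_closedBall_zero_iff.2 ((hιA (v o)).symm ▸ (hv o).2)) (fun o l => ?_)
    (by simpa only [hιA] using hvW)
  have a1 := hl i τ (C₂ * R) (Real.log C₁ + 3 * D * q ^ 2 * R * M.wmax) hi (by positivity)
    (by positivity) _ (hvZ o) (hτ.trans (by
      have e1 : M.wv (v o) i = ‖M.wt i‖ * ((1 - q ^ 2) * R'') := by
        rw [← (hv o).1, ← real_inner_smul_left, ← hon, wv]
      rw [hιA, e1, add_comm (_ * _), add_assoc, Real.exp_add (Real.log C₁),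
        Real.exp_log (by linarith)]
      refine mul_le_mul_of_nonneg_left (Real.exp_le_exp.2 ?_) (by linarith)
      have b1 := mul_le_mul_of_nonneg_right r3 (norm_nonneg (M.wt i))
      have b2 := mul_le_mul_of_nonneg_left (M.norm_wt_le i)
        (by positivity : 0 ≤ 3 * D * q ^ 2 * R)
      linarith))
  have a2 := (hlip φ hφ.2 (l * ι (v o)) ((ι (v o))⁻¹ * (τ • M.X i) * ι (v o))).1
  have e3 : l * ι (v o) * ((ι (v o))⁻¹ * (τ • M.X i) * ι (v o)) = l * (τ • M.X i) * ι (v o) := by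
    group
  rw [e3] at a2
  have a3 := mul_le_mul_of_nonneg_left a1 (zero_le_one.trans hCa)
  have a4 := mul_le_mul_of_nonneg_right hεη hR0.le
  have a5 := mul_le_mul_of_nonneg_right hq2 (mul_pos hq0 hR0).le
  have a6 := mul_le_mul_of_nonneg_left r1 (mul_pos hc hq0).le
  rw [hQ] at a5
  linarith

end Vale.Agent.P188.Geo
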