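import Vale.Agent.P188.Cont
import Vale.Agent.P188.Nu

/-! Geometry of the sibling move: the region `OmP`, the bodies, the inclusions.
Plan: `K_subset_smul`, `smul_K_subset`, `K_max_subset`, `Ad_mem`, `h_closedBall`,
`h_convexHull_union` (an isometry maps the hull of two balls to the hull of the image balls).
`wmax` bounds every `‖wt j‖`; nonzero weights have norm at least some `wmin > 0`. -/

namespace Vale.Agent.P188.Geo
open scoped InnerProductSpace Pointwise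
open MeasureTheory
variable (M : Geo)

/-- A ball pushed out towards a small ball in the direction `s`. -/
def OmP (R'' R η : ℝ) (s : M.V) : Set M.V :=
  convexHull ℝ (Metric.closedBall 0 R'' ∪ Metric.closedBall (((1 + η) * R) • s) (η * R))

/-- Support vector of the small ball. -/
noncomputable def hl (R η : ℝ) (s : M.V) : Fin M.d → ℝ := M.hb (((1 + η) * R) • s) (η * R)

theorem geom_hull {X : Type} [NormedAddCommGroup X] [NormedSpace ℝ X] {s t : Set X}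
    (hs : Convex ℝ s) (ht : Convex ℝ t) (cs : IsCompact s) (ct : IsCompact t) :
    IsCompact (convexHull ℝ (s ∪ t)) := by
  rcases s.eq_empty_or_nonempty with rfl | ns
  · rwa [Set.empty_union, ht.convexHull_eq]
  rcases t.eq_empty_or_nonempty with rfl | nt
  · rwa [Set.union_empty, hs.convexHull_eq]
  have h : convexHull ℝ (s ∪ t) = (fun p : ℝ × X × X => (1 - p.1) • p.2.1 + p.1 • p.2.2) ''
      (Set.Icc 0 1 ×ˢ s ×ˢ t) := by
    rw [hs.convexHull_union ht ns nt]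
    ext z
    simp only [mem_convexJoin, segment_eq_image, Set.mem_image, Set.mem_prod, Prod.exists]
    constructor
    · rintro ⟨x, hx, y, hy, θ, hθ, rfl⟩
      exact ⟨θ, x, y, ⟨hθ, hx, hy⟩, rfl⟩
    · rintro ⟨θ, x, y, ⟨hθ, hx, hy⟩, rfl⟩
      exact ⟨x, hx, y, hy, θ, hθ, rfl⟩
  rw [h]
  exact (isCompact_Icc.prod (cs.prod ct)).image (by fun_prop)

theorem geom_ideal (a : ℝ) (r) : ∀ x ∈ M.K r, ∀ y ∈ a • M.K r, M.B x y ∈ a • M.K r := by
  rintro x hx _ ⟨y, hy, rfl⟩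
  exact ⟨_, (M.K_isLB r).lie x hx y hy, by simp only [map_smul]⟩

theorem geom_shrink {r r' : Fin M.d → ℝ} {t : ℝ} (ht : 0 ≤ t)
    (h : ∀ i, M.wt i ≠ 0 → r' i ≤ r i + t) : Real.exp (-(M.c * t)) • M.K r' ⊆ M.K r := by
  refine (Set.smul_set_mono (M.K_subset_smul ht h)).trans ?_
  rw [smul_smul, ← Real.exp_add, neg_add_cancel, Real.exp_zero, one_smul]

theorem geom_sub {r r' : Fin M.d → ℝ} {t : ℝ} (ht : 0 ≤ t)
    (h : ∀ i, M.wt i ≠ 0 → r i + t ≤ r' i) : M.K r ⊆ Real.exp (-t) • M.K r' := by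
  refine le_trans ?_ (Set.smul_set_mono (M.smul_K_subset ht h))
  rw [smul_smul, ← Real.exp_add, neg_add_cancel, Real.exp_zero, one_smul]

theorem norm_wt_le (j) : ‖M.wt j‖ ≤ M.wmax := by
  exact Finset.single_le_sum (f := fun i => ‖M.wt i‖) (fun _ _ => norm_nonneg _)
    (Finset.mem_univ j)

theorem wmax_nonneg : 0 ≤ M.wmax := by
  exact Finset.sum_nonneg fun _ _ => norm_nonneg _

theorem exists_wmin : ∃ c : ℝ, 0 < c ∧ ∀ j, M.wt j ≠ 0 → c ≤ ‖M.wt j‖ := by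
  have h0 : 0 ≤ ∑ j, ‖M.wt j‖⁻¹ := Finset.sum_nonneg fun _ _ => by positivity
  refine ⟨(1 + ∑ j, ‖M.wt j‖⁻¹)⁻¹, by positivity, fun j hj => ?_⟩
  rw [inv_le_comm₀ (by positivity) (norm_pos_iff.2 hj)]
  have := Finset.single_le_sum (f := fun i => ‖M.wt i‖⁻¹) (fun _ _ => by positivity)
    (Finset.mem_univ j)
  linarith

theorem OmP_convex (R'' R η s) : Convex ℝ (M.OmP R'' R η s) := by
  exact convex_convexHull ℝ _

theorem OmP_compact (R'' R η s) : IsCompact (M.OmP R'' R η s) := by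
  exact geom_hull (convex_closedBall _ _) (convex_closedBall _ _) (isCompact_closedBall _ _)
    (isCompact_closedBall _ _)

theorem ball_subset_OmP (R'' R η s) : Metric.closedBall 0 R'' ⊆ M.OmP R'' R η s := by
  exact Set.subset_union_left.trans (subset_convexHull ℝ _)

theorem OmP_subset {R'' R η : ℝ} {s : M.V} (hs : ‖s‖ = 1) (hR : 0 ≤ R) (hη : 0 ≤ η)
    (h : R'' ≤ R) : M.OmP R'' R η s ⊆ Metric.closedBall 0 ((1 + 2 * η) * R) := by
  have h0 := mul_nonneg hη hR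
  refine convexHull_min (Set.union_subset ?_ ?_) (convex_closedBall _ _)
  · exact Metric.closedBall_subset_closedBall (by nlinarith)
  · refine Metric.closedBall_subset_closedBall' ?_
    rw [dist_zero_right, norm_smul, hs, Real.norm_of_nonneg (by positivity)]
    nlinarith

theorem h_image_OmP {R'' R η : ℝ} (h1 : 0 ≤ R'') (h2 : 0 ≤ η * R) (s : M.V)
    (w : M.V ≃ₗᵢ[ℝ] M.V) (j) :
    M.h (w '' M.OmP R'' R η s) j = max (M.hb 0 R'' j) (M.hl R η (w s) j) := by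
  have h3 : w '' M.OmP R'' R η s = convexHull ℝ (Metric.closedBall 0 R'' ∪
      Metric.closedBall (((1 + η) * R) • w s) (η * R)) := by
    have := LinearMap.image_convexHull (w.toLinearEquiv : M.V →ₗ[ℝ] M.V)
      (Metric.closedBall 0 R'' ∪ Metric.closedBall (((1 + η) * R) • s) (η * R))
    refine Eq.trans this ?_
    congr 1
    change w '' _ = _
    rw [Set.image_union, w.image_closedBall, w.image_closedBall, map_zero, map_smul]
  rw [h3, M.h_convexHull_union (isCompact_closedBall _ _) (isCompact_closedBall _ _)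
    (Metric.nonempty_closedBall.2 h1) (Metric.nonempty_closedBall.2 h2), M.h_closedBall _ h1,
    M.h_closedBall _ h2]
  rfl

theorem h_OmP {R'' R η : ℝ} (h1 : 0 ≤ R'') (h2 : 0 ≤ η * R) (s : M.V) (j) :
    M.h (M.OmP R'' R η s) j = max (M.hb 0 R'' j) (M.hl R η s j) := by
  simpa using M.h_image_OmP h1 h2 s (LinearIsometryEquiv.refl ℝ M.V) j

theorem h_image_ball (o : M.V) {R : ℝ} (hR : 0 ≤ R) (w : M.V ≃ₗᵢ[ℝ] M.V) :
    M.h (w '' Metric.closedBall o R) = M.hb (w o) R := by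
  rw [w.image_closedBall, M.h_closedBall _ hR]


theorem Lb_isLB {η R : ℝ} (hη : 0 ≤ η) (hR : 0 ≤ R) : M.IsLB (M.Lb η R) := by
  have := M.wmax_nonneg
  exact IsLB.smul M (M.K_isLB _) (Real.exp_pos _).le
    (Real.exp_le_one_iff.2 (neg_nonpos.2 (by positivity)))

theorem Lb_sub_e (η R : ℝ) : M.Lb η R ⊆ M.e := by
  rintro _ ⟨x, hx, rfl⟩
  exact M.e.smul_mem _ (M.K_sub_e _ hx)

theorem Lb_ideal (η R : ℝ) : ∀ x ∈ M.K (M.hb 0 ((1 + 3 * η) * R)), ∀ y ∈ M.Lb η R,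
    M.B x y ∈ M.Lb η R := by
  exact M.geom_ideal _ _

theorem Lb_subset {η R : ℝ} (hη : 0 ≤ η) (hR : 0 ≤ R) : M.Lb η R ⊆ M.K (M.hb 0 R) := by
  have := M.wmax_nonneg
  refine M.geom_shrink (by positivity) fun j _ => ?_
  have h1 := mul_le_mul_of_nonneg_left (M.norm_wt_le j) (mul_nonneg hη hR)
  simp only [hb]
  nlinarith

theorem Lb_pos (η R : ℝ) : 0 < M.mE.real (M.Lb η R) := by
  rw [Lb, mE, subMu_real_smul _ _ (Real.exp_pos _)]
  exact mul_pos (pow_pos (Real.exp_pos _) _) (M.mE_K_pos _)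

theorem subset_Lb : ∃ D₀ : ℝ, 1 ≤ D₀ ∧ ∀ D η R : ℝ, D₀ ≤ D → 0 ≤ η → 0 ≤ R →
    (∀ j, M.wt j ≠ 0 → M.hb 0 ((1 - D * η) * R) j + η * R + M.c * (3 * η * R * M.wmax) ≤
      M.hb 0 ((1 + 3 * η) * R) j) ∧
    M.K (fun j => M.hb 0 ((1 - D * η) * R) j + η * R) ⊆ M.Lb η R := by
  obtain ⟨c, hc, hw⟩ := M.exists_wmin
  have hm := M.wmax_nonneg
  refine ⟨1 + (1 + 3 * M.c * M.wmax) / c, le_add_of_nonneg_right (by positivity),
    fun D η R hD hη hR => ?_⟩
  have key : ∀ j, M.wt j ≠ 0 → M.hb 0 ((1 - D * η) * R) j + η * R +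
      M.c * (3 * η * R * M.wmax) ≤ M.hb 0 ((1 + 3 * η) * R) j := by
    intro j hj
    have h1 : (1 + 3 * M.c * M.wmax) / c ≤ D := by linarith
    have hD0 : 0 ≤ D := le_trans (by positivity) h1
    rw [div_le_iff₀ hc] at h1
    have h2 := h1.trans (mul_le_mul_of_nonneg_left (hw j hj) hD0)
    have h3 := mul_le_mul_of_nonneg_left h2 (mul_nonneg hη hR)
    have h4 := mul_nonneg (mul_nonneg hη hR) (norm_nonneg (M.wt j))
    simp only [hb]
    nlinarith
  exact ⟨key, M.geom_sub (by positivity) key⟩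

theorem hl_le {R η t : ℝ} {s : M.V} (hs : ‖s‖ = 1) (hR : 0 ≤ R) (hη : 0 ≤ η) (j)
    (ht : t ≤ η * R * ‖M.wt j‖) : M.hl R η s j + t ≤ M.hb 0 ((1 + 3 * η) * R) j := by
  have h1 := real_inner_le_norm (M.wt j) s
  rw [hs, mul_one] at h1
  have h2 := mul_le_mul_of_nonneg_left h1 (show 0 ≤ (1 + η) * R by positivity)
  simp only [hl, hb, inner_smul_right, inner_zero_right]
  nlinarith

/-- Conjugates of the shrunk body by a slightly enlarged body. -/
theorem Ad_shrink (C₀ : ℝ) (h : 0 ≤ C₀) : ∃ C : ℝ, 1 ≤ C ∧ ∀ (r r' r'' : Fin M.d → ℝ) (t : ℝ),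
    0 ≤ t → (∀ j, M.wt j ≠ 0 → r' j ≤ r j + t) → (∀ j, M.wt j ≠ 0 → r'' j + M.c * t ≤ r j + t) →
      ∀ g ∈ C₀ • M.K r', ∀ y ∈ M.K r'', M.Ad g y ∈ C • M.K r := by
  obtain ⟨C, hC1, hC⟩ := M.Ad_mem C₀ h
  refine ⟨C, hC1, fun r r' r'' t ht h1 h2 g hg y hy => ?_⟩
  have hg' : g ∈ C₀ • M.K (fun j => r j + t) := Set.smul_set_mono (M.K_mono h1) hg
  have hA : M.A g = 0 := by
    obtain ⟨x, hx, rfl⟩ := hg
    exact M.A_e (M.e.smul_mem _ (M.K_sub_e _ hx))
  have h3 := hC _ _ ((M.K_isLB fun j => r j + t).sc.smul (Real.exp (-(M.c * t))))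
    (M.geom_ideal _ _) g hg' (Or.inl hA) y (M.geom_sub (by positivity) h2 hy)
  exact Set.smul_set_mono (M.geom_shrink ht fun j _ => le_rfl) h3

theorem ln_conj_letter : ∃ C : ℝ, 1 ≤ C ∧ ∀ (i : Fin M.d) (τ ρ θ : ℝ), M.wt i ≠ 0 → 0 ≤ ρ →
    0 ≤ θ → ∀ ζ ∈ M.Z ρ, |τ| ≤ Real.exp (M.wv (M.A ζ) i + θ) →
      M.ln (ζ⁻¹ * (τ • M.X i) * ζ) ≤ C * (θ + Real.log (2 + ρ)) := by
  obtain ⟨C, hC1, hC⟩ := M.ln_conj_K 1 zero_le_one
  refine ⟨C, hC1, fun i τ ρ θ hi hρ hθ ζ hζ hτ => ?_⟩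
  refine hC (fun j => M.wv (M.A ζ) j + θ) ρ θ hρ hθ (fun a b hab => ?_) ζ hζ
    (fun _ _ => le_rfl) _ ?_
  · simp only [M.wv_wtFun _ a b hab]
  · rw [one_smul]
    exact M.X_mem_K hi hτ

/-- Test heights detect the colour. -/
theorem eq_of_tests : ∃ c : ℝ, 0 < c ∧ ∀ w ∈ M.W, ∀ w' ∈ M.W, ∀ (s : M.V) (a b E : ℝ), ‖s‖ = 1 →
    0 < b → b ≤ a → E ≤ c * b → ‖w (a • s) - w' (a • s)‖ ≤ E →
    (∀ j : Fin M.k, ‖w (a • s + b • (EuclideanSpace.single j 1 - s j • s)) -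
      w' (a • s + b • (EuclideanSpace.single j 1 - s j • s))‖ ≤ E) → w = w' := by
  obtain ⟨c, hc, hsep⟩ := M.W_sep
  refine ⟨c / (3 * (M.k + 1)), by positivity, fun w hw w' hw' s a b E hs hb hba hE h1 h2 => ?_⟩
  set κ : ℝ := c / (3 * (M.k + 1)) with hκ
  have hκ0 : 0 < κ := by positivity
  set T : M.V →ₗ[ℝ] M.V := (w.toLinearEquiv : M.V →ₗ[ℝ] M.V) - w'.toLinearEquiv with hT
  have hT' : ∀ v, w v - w' v = T v := fun _ => rfl
  have h3 : ‖T s‖ ≤ κ := by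
    rw [hT', map_smul, norm_smul, Real.norm_of_nonneg (by linarith)] at h1
    have := mul_le_mul_of_nonneg_right hba (norm_nonneg (T s))
    exact le_of_mul_le_mul_left (by linarith) hb
  have h4 : ∀ j, ‖T (EuclideanSpace.single j 1)‖ ≤ 3 * κ := by
    intro j
    have h5 := h2 j
    rw [hT', map_add] at h5
    rw [hT'] at h1
    have h6 := norm_sub_le (T (a • s) + T (b • (EuclideanSpace.single j 1 - s j • s))) (T (a • s))
    rw [add_sub_cancel_left, map_smul T b, norm_smul, Real.norm_of_nonneg hb.le] at h6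
    rw [map_smul T b] at h5
    have h7 : ‖T (EuclideanSpace.single j 1 - s j • s)‖ ≤ 2 * κ :=
      le_of_mul_le_mul_left (by linarith) hb
    have h8 := norm_add_le (T (EuclideanSpace.single j 1 - s j • s)) (T (s j • s))
    rw [← map_add, sub_add_cancel, map_smul, norm_smul] at h8
    have h9 : ‖s j‖ ≤ 1 := hs ▸ PiLp.norm_apply_le s j
    nlinarith [norm_nonneg (T s), norm_nonneg (s j)]
  refine hsep w hw w' hw' fun v => ?_
  have hv : v = ∑ j, v j • EuclideanSpace.single j (1 : ℝ) := by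
    ext i
    simp [Pi.single_apply]
  have h5 : ‖T v‖ ≤ ∑ _j : Fin M.k, ‖v‖ * (3 * κ) := by
    conv_lhs => rw [hv, map_sum]
    refine (norm_sum_le _ _).trans (Finset.sum_le_sum fun j _ => ?_)
    rw [map_smul, norm_smul]
    exact mul_le_mul (PiLp.norm_apply_le v j) (h4 j) (norm_nonneg _) (norm_nonneg _)
  rw [Finset.sum_const, Finset.card_univ, Fintype.card_fin, nsmul_eq_mul] at h5
  have h6 : c = (M.k + 1) * (3 * κ) := by rw [hκ]; field_simp
  rw [hT', h6]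
  nlinarith [mul_nonneg (norm_nonneg v) hκ0.le]


end Vale.Agent.P188.Geo
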