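import Vale.Agent.P188.B.Mkv
import Vale.Agent.P188.UB

/-! The measure-theoretic half of `half`. -/

namespace Vale.Agent.P188.Geo
open scoped InnerProductSpace Pointwise
open MeasureTheory
variable (M : Geo)

theorem hf_sf : SFinite M.mE := inferInstanceAs (SFinite (subMu M.e))

theorem hf_fin {S : Set M.G} (h : IsCompact S) : M.mE S ≠ ⊤ := h.measure_ne_top (μ := subMu M.e)

theorem hf_two {A A' D : Set M.G} {g g' : M.G} (hg : g ∈ M.e) (hg' : g' ∈ M.e)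
    (h : ∀ x ∈ A, g * x * g' ∈ A') (hA' : IsCompact A') :
    M.mE.real (A ∩ {x | g * x * g' ∈ D}) ≤ M.mE.real (A' ∩ D) := by
  have e : M.mE ((fun x => g * x) ⁻¹' ((fun x => x * g') ⁻¹' (A' ∩ D))) = M.mE (A' ∩ D) := by
    rw [M.mE_preimage_mul_left hg, M.mE_preimage_mul_right hg']
  refine ENNReal.toReal_mono
    (ne_top_of_le_ne_top (M.hf_fin hA') (measure_mono Set.inter_subset_left)) ?_
  rw [← e]
  exact measure_mono fun x hx => ⟨h x hx.1, hx.2⟩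

theorem hf_right₂ {A B A' B' D : Set M.G} {g g' : M.G} (hg : g ∈ M.e) (hg' : g' ∈ M.e)
    (h : ∀ x ∈ A, x * g ∈ A') (h' : ∀ x ∈ B, x * g' ∈ B') (hA' : IsCompact A')
    (hB' : IsCompact B') (hD : MeasurableSet D) :
    (M.mE.prod M.mE).real (A ×ˢ B ∩ {p | p.1 * g * (p.2 * g') ∈ D}) ≤
      (M.mE.prod M.mE).real {p | p.1 ∈ A' ∧ p.2 ∈ B' ∧ p.1 * p.2 ∈ D} := by
  have := M.hf_sf
  have p1 : MeasurePreserving (fun x => x * g) M.mE M.mE :=
    ⟨Continuous.measurable (by fun_prop), M.map_mul_right M.sub_e hg⟩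
  have p2 : MeasurePreserving (fun x => x * g') M.mE M.mE :=
    ⟨Continuous.measurable (by fun_prop), M.map_mul_right M.sub_e hg'⟩
  have m1 : MeasurableSet {p : M.G × M.G | p.1 ∈ A' ∧ p.2 ∈ B' ∧ p.1 * p.2 ∈ D} :=
    (measurable_fst hA'.measurableSet).inter ((measurable_snd hB'.measurableSet).inter
      (hD.preimage (Continuous.measurable (by fun_prop))))
  have e := (p1.prod p2).measure_preimage m1.nullMeasurableSet
  refine ENNReal.toReal_mono (ne_top_of_le_ne_top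
    (hf_prod_fin M.mE M.mE (M.hf_fin hA') (M.hf_fin hB')) (measure_mono fun p hp => ⟨hp.1, hp.2.1⟩))
    ?_
  rw [← e]
  exact measure_mono fun p hp => ⟨h _ hp.1.1, h' _ hp.1.2, hp.2⟩

theorem hf_meas : ∃ C₁ Cb : ℝ, 1 ≤ C₁ ∧ 1 ≤ Cb ∧
    ∀ (C₀ δ' : ℝ) (L T T' K₃ 𝒢₁ 𝒢₂ N : Set M.G) (t : M.G), C₁ ≤ C₀ → 0 ≤ δ' →
      M.IsLB L → M.IsLB T' → L ⊆ M.e → T' ⊆ M.e → (∀ x ∈ T', ∀ y ∈ L, M.B x y ∈ L) →
      IsCompact T → IsCompact K₃ → T ⊆ T' → K₃ ⊆ L → t ∈ T' → 0 < M.mE.real L →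
      MeasurableSet 𝒢₁ → MeasurableSet 𝒢₂ → MeasurableSet N →
      M.mE.real ((C₀ • M.Ad t⁻¹ '' L) \ 𝒢₁) ≤ δ' * M.mE.real (M.Ad t⁻¹ '' L) →
      M.mE.real ((C₀ • (4 : ℝ)⁻¹ • (L + T')) \ 𝒢₂) ≤ δ' * M.mE.real ((4 : ℝ)⁻¹ • (L + T')) →
      M.mE.real ((C₀ • (4 : ℝ)⁻¹ • (L + T')) ∩ N) ≤ δ' * M.mE.real ((4 : ℝ)⁻¹ • (L + T')) →
      (M.mE.prod M.mE).real {q | q.1 ∈ L ∧ q.2 ∈ T' ∧ ¬ (t⁻¹ * q.1 * t ∈ 𝒢₁ ∧ q.1 * q.2 ∈ 𝒢₂ ∧
        q.1 * q.2 ∉ N ∧ 3 / 4 * (M.mE.real K₃ * M.mE.real T) ≤ (M.mE.prod M.mE).real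
          (K₃ ×ˢ T ∩ {p | t⁻¹ * q.1 * t * p.1 ∈ 𝒢₁ ∧ q.1 * t * (p.1 * (t⁻¹ * q.2) * p.2) ∈ 𝒢₂}))} ≤
        Cb * δ' * (M.mE.real L * M.mE.real T') := by
  have := M.hf_sf
  obtain ⟨Ca, ca, ha⟩ := M.Ad_mem 1 zero_le_one
  obtain ⟨Cm, cm, hm⟩ := M.mul_mem Ca (by positivity)
  obtain ⟨Cc, cc, hc⟩ := M.conv_le Cm cm
  refine ⟨Cm + Cc, 5 + 6 * Cc, by linarith, by linarith, fun C₀ δ' L T T' K₃ 𝒢₁ 𝒢₂ N t hC hδ hL hT'
    eL eT hi cT cK sT sK ht pL m1 m2 mN b1 b2 b3 => ?_⟩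
  have hP := hL.add M hT' hi
  have te := eT ht
  have pP : 0 < M.mE.real ((4 : ℝ)⁻¹ • (L + T')) := by
    have s : (4 : ℝ)⁻¹ • L ⊆ (4 : ℝ)⁻¹ • (L + T') :=
      Set.smul_set_mono fun x hx => ⟨x, hx, 0, hT'.sc.zero_mem, add_zero x⟩
    refine lt_of_lt_of_le ?_ (measureReal_mono s (M.hf_fin hP.compact))
    have e := subMu_real_smul M.e (4 : ℝ)⁻¹ (by positivity) L
    exact lt_of_lt_of_eq (mul_pos (by positivity) pL) e.symm
  have cj : ∀ y ∈ L, ∀ l ∈ L, l * (t * y * t⁻¹) ∈ Cm • L := fun y hy l hl => by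
    rw [M.conj_eq (Or.inl (M.A_e (eL hy)))]
    exact hm L hL (M.tame_of_e eL) l (hL.sc.subset_smul ca hl) _
      (ha T' L hL.sc hi t (M.lb_one ht) (Or.inl (M.A_e te)) y hy)
  have fin : M.mE.prod M.mE (L ×ˢ T') ≠ ⊤ :=
    hf_prod_fin M.mE M.mE (M.hf_fin hL.compact) (M.hf_fin hT'.compact)
  have s1 : ∀ y ∈ L, (M.mE.prod M.mE).real (L ×ˢ T' ∩ {q | t⁻¹ * q.1 * t * y ∉ 𝒢₁}) ≤
      δ' * (M.mE.real L * M.mE.real T') := fun y hy => by
    have e : L ×ˢ T' ∩ {q : M.G × M.G | t⁻¹ * q.1 * t * y ∉ 𝒢₁} =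
        (L ∩ {l | t⁻¹ * l * (t * y) ∈ 𝒢₁ᶜ}) ×ˢ T' := by
      ext q
      simp only [Set.mem_inter_iff, Set.mem_prod, Set.mem_ofPred_eq, Set.mem_compl_iff, mul_assoc]
      tauto
    have hA := hL.image_Ad M t⁻¹
    have h1 := M.hf_two (A := L) (A' := C₀ • M.Ad t⁻¹ '' L) (D := 𝒢₁ᶜ) (M.inv_mem_e te)
      (M.mul_mem_e te (eL hy)) (fun l hl => ?_) (hA.compact.smul C₀)
    · rw [e, hf_prod, ← mul_assoc]
      refine mul_le_mul_of_nonneg_right (h1.trans (b1.trans_eq ?_)) measureReal_nonneg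
      rw [Measure.real, M.mE_image_Ad]
      rfl
    · obtain ⟨z, hz, e'⟩ := cj y hy l hl
      have e2 : t⁻¹ * l * (t * y) = M.Ad t⁻¹ (l * (t * y * t⁻¹)) := by
        rw [← M.conj_eq (Or.inl (M.A_e (M.mul_mem_e (eL hl)
          (M.mul_mem_e (M.mul_mem_e te (eL hy)) (M.inv_mem_e te)))))]
        group
      refine hA.sc.smul_mono (s := Cm) (by rw [abs_of_nonneg (by positivity)]; linarith) ?_
      rw [e2, ← e', map_smul]
      exact Set.smul_mem_smul_set ⟨z, hz, rfl⟩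
  have s2 : ∀ D, MeasurableSet D → M.mE.real ((C₀ • (4 : ℝ)⁻¹ • (L + T')) ∩ D) ≤
      δ' * M.mE.real ((4 : ℝ)⁻¹ • (L + T')) → ∀ y ∈ L, ∀ τ ∈ T',
      (M.mE.prod M.mE).real (L ×ˢ T' ∩ {q | q.1 * t * (y * (t⁻¹ * q.2) * τ) ∈ D}) ≤
        Cc * δ' * (M.mE.real L * M.mE.real T') := fun D hD bD y hy τ hτ => by
    have h1 := M.hf_right₂ (A := L) (B := T') (A' := Cm • L) (B' := Cm • T') (D := D)
      (M.mul_mem_e (M.mul_mem_e te (eL hy)) (M.inv_mem_e te)) (eT hτ) (cj y hy)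
      (fun x hx => hm T' hT' (M.tame_of_e eT) x (hT'.sc.subset_smul ca hx) τ
        (hT'.sc.subset_smul ca hτ)) (hL.compact.smul Cm) (hT'.compact.smul Cm) hD
    have e : ∀ q : M.G × M.G, q.1 * t * (y * (t⁻¹ * q.2) * τ) =
        q.1 * (t * y * t⁻¹) * (q.2 * τ) := fun q => by group
    simp only [e]
    refine h1.trans (le_of_mul_le_mul_right ((hc L T' D hL hT' eL eT hi hD).trans ?_) pP)
    have h2 : M.mE.real ((Cc • (4 : ℝ)⁻¹ • (L + T')) ∩ D) ≤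
        M.mE.real ((C₀ • (4 : ℝ)⁻¹ • (L + T')) ∩ D) :=
      measureReal_mono (Set.inter_subset_inter_left _ (hP.sc.smul_mono
        (by rw [abs_of_nonneg (by positivity)]; linarith)))
        (ne_top_of_le_ne_top (M.hf_fin (hP.compact.smul C₀)) (measure_mono Set.inter_subset_left))
    calc _ ≤ Cc * M.mE.real L * M.mE.real T' * (δ' * M.mE.real ((4 : ℝ)⁻¹ • (L + T'))) :=
          mul_le_mul_of_nonneg_left (h2.trans bD) (by positivity)
      _ = _ := by ring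
  have mE1 : MeasurableSet {z : (M.G × M.G) × M.G × M.G | t⁻¹ * z.1.1 * t * z.2.1 ∉ 𝒢₁ ∨
      z.1.1 * t * (z.2.1 * (t⁻¹ * z.1.2) * z.2.2) ∈ 𝒢₂ᶜ} :=
    (m1.compl.preimage (Continuous.measurable (by fun_prop))).union
      (m2.compl.preimage (Continuous.measurable (by fun_prop)))
  have mk := hf_markov (M.mE.prod M.mE) (M.mE.prod M.mE)
    (hL.compact.measurableSet.prod hT'.compact.measurableSet)
    (cK.measurableSet.prod cT.measurableSet) fin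
    (hf_prod_fin M.mE M.mE (M.hf_fin cK) (M.hf_fin cT)) mE1 (κ := 4⁻¹)
    (a := (1 + Cc) * δ' * (M.mE.real L * M.mE.real T')) (by positivity) (by positivity)
    fun p hp => by
      have h1 := s1 p.1 (sK hp.1)
      have h2 := s2 _ m2.compl b2 p.1 (sK hp.1) p.2 (sT hp.2)
      refine (measureReal_mono (fun q hq => ?_) (measure_union_ne_top
        (ne_top_of_le_ne_top fin (measure_mono Set.inter_subset_left))
        (ne_top_of_le_ne_top fin (measure_mono Set.inter_subset_left)))).trans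
        ((measureReal_union_le _ _).trans ((add_le_add h1 h2).trans_eq (by ring)))
      exact hq.2.elim (fun h => Or.inl ⟨hq.1, h⟩) fun h => Or.inr ⟨hq.1, h⟩
  have h1 := s1 1 hL.sc.zero_mem
  have h2 := s2 _ m2.compl b2 1 hL.sc.zero_mem 1 hT'.sc.zero_mem
  have h3 := s2 _ mN b3 1 hL.sc.zero_mem 1 hT'.sc.zero_mem
  simp only [mul_one, one_mul, mul_assoc _ t (t⁻¹ * _), mul_inv_cancel_left] at h1 h2 h3
  have f := fun S : Set (M.G × M.G) =>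
    ne_top_of_le_ne_top fin (measure_mono (Set.inter_subset_left (t := S)))
  refine (measureReal_mono (fun q hq => ?_) (measure_union_ne_top (measure_union_ne_top (f _) (f _))
    (measure_union_ne_top (f _) (f _)))).trans ((measureReal_union_le _ _).trans
      ((add_le_add ((measureReal_union_le _ _).trans (add_le_add h1 h2))
        ((measureReal_union_le _ _).trans (add_le_add h3 mk))).trans_eq (by ring)))
  obtain ⟨q1, q2, hq⟩ := hq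
  by_contra hn
  simp only [Set.mem_union, not_or, Set.mem_inter_iff, Set.mem_prod, q1, q2, true_and,
    Set.mem_ofPred_eq, not_not, Set.mem_compl_iff] at hn
  obtain ⟨⟨n1, n2⟩, n3, n4⟩ := hn
  refine hq ⟨n1, n2, n3, ?_⟩
  have h4 := hf_compl (M.mE.prod M.mE) (measurable_prodMk_left (x := q) mE1)
    (hf_prod_fin M.mE M.mE (M.hf_fin cK) (M.hf_fin cT)) n4
  rw [hf_prod] at h4
  refine h4.trans_eq (congrArg _ ?_)
  ext p
  simp only [Set.mem_sdiff, Set.mem_preimage, Set.mem_ofPred_eq, Set.mem_inter_iff, not_or, not_not,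
    Set.mem_compl_iff]

end Vale.Agent.P188.Geo
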