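import Vale.Agent.P188.B.Geom

/-! Typical sets: pairwise consequences of `Aff`.
Plan: call a pair `(l, p)` good if `a1` holds at `l` and at `l * p`, and `a2`, `a3` hold for
`(l, p)`; the good pairs form a measurable set (finite union over `W_finite`; `K r * Z ρ` is
compact), and for each fixed `p ∈ C' • K (h Ω')` the bad `l ∈ C₁ • B` have measure `≤ 4 δ'`
(`mE_preimage_mul_right`, `mul_mem`; `K (h Ω') ⊆ K (h Ω) ⊆ C₁ • B`).  `𝒢` = those `l` with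
`a1` good and `mE {p ∈ C' • K (h Ω') | (l, p) bad} ≤ mE (K (h Ω')) / 4` (Fubini, Markov).  For
`l₀, l₁ ∈ 𝒢` pick `p ∈ K (h Ω')` with `(l₀, p)` and `(l₁, (l₀⁻¹ l₁)⁻¹ p)` good.  Then the
displacement is `x₀ ζ₀ ζ₁⁻¹ x₁⁻¹ = x₀ * Ad (ζ₀ ζ₁⁻¹) x₁⁻¹ * (ζ₀ ζ₁⁻¹)` with small height
(`Ad_Z_K`, `K_prod`, `Z_mul`). -/

namespace Vale.Agent.P188.Geo
open scoped InnerProductSpace Pointwise
open MeasureTheory
variable (M : Geo)

/-- `𝒢` is a typical set for the position `ζ` and the subregion `Ω'`. -/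
structure Typ (φ : M.G → M.G) (Ω' : Set M.V) (ζ : M.G) (S C₁ ε δ : ℝ) (B : Set M.G)
    (w : M.G → (M.V ≃ₗᵢ[ℝ] M.V)) (m : M.G → M.V) (𝒢 : Set M.G) : Prop where
  meas : MeasurableSet 𝒢
  most : M.mE.real ((C₁ • B) \ 𝒢) ≤ δ * M.mE.real B
  ht : ∀ l ∈ 𝒢, ‖M.A (φ (l * ζ)) - w l (M.A ζ) - m l‖ ≤ ε * S
  rel : ∀ l₀ ∈ 𝒢, ∀ l₁ ∈ 𝒢, l₀⁻¹ * l₁ ∈ C₁ • M.K (M.h Ω') → w l₀ = w l₁ ∧ ‖m l₀ - m l₁‖ ≤ ε * S ∧
    (φ (l₀ * ζ))⁻¹ * φ (l₁ * ζ) ∈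
      M.K (fun i => M.h (w l₀ '' Ω') i - M.wv (w l₀ (M.A ζ)) i + ε * S) * M.Z (S ^ 3)

theorem typ_markov {α : Type*} [MeasurableSpace α] (μ : Measure α) [SFinite μ] {L P : Set α}
    (hL : MeasurableSet L) (hP : MeasurableSet P) (hLf : μ L ≠ ⊤) (hPf : μ P ≠ ⊤)
    {E : Set (α × α)} (hE : MeasurableSet E) {a t : ℝ} (ha : 0 ≤ a) (ht : 0 < t)
    (h : ∀ p ∈ P, μ.real (L ∩ {l | (l, p) ∈ E}) ≤ a) :
    MeasurableSet {l | t < μ.real (P ∩ {p | (l, p) ∈ E})} ∧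
      μ.real (L ∩ {l | t < μ.real (P ∩ {p | (l, p) ∈ E})}) ≤ a * μ.real P / t := by
  constructor
  · have h1 : Measurable fun l => μ (Prod.mk l ⁻¹' (E ∩ Set.univ ×ˢ P)) :=
      measurable_measure_prodMk_left (hE.inter (MeasurableSet.univ.prod hP))
    have h2 : (fun l => μ.real (P ∩ {p | (l, p) ∈ E})) =
        fun l => (μ (Prod.mk l ⁻¹' (E ∩ Set.univ ×ˢ P))).toReal := by
      funext l
      rw [measureReal_def]
      congr 2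
      ext p
      simp [and_comm]
    have h3 : Measurable fun l => μ.real (P ∩ {p | (l, p) ∈ E}) := by
      rw [h2]
      exact h1.ennreal_toReal
    exact measurableSet_lt measurable_const h3
  have hF : MeasurableSet (E ∩ L ×ˢ P) := hE.inter (hL.prod hP)
  have h1 : μ.prod μ (E ∩ L ×ˢ P) ≤ ENNReal.ofReal a * μ P := by
    rw [Measure.prod_apply_symm hF, ← lintegral_indicator_const hP]
    refine lintegral_mono fun p => ?_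
    by_cases hp : p ∈ P
    · rw [Set.indicator_of_mem hp]
      have e : (fun x => (x, p)) ⁻¹' (E ∩ L ×ˢ P) = L ∩ {l | (l, p) ∈ E} := by
        ext l
        simp [hp, and_comm]
      rw [e]
      have h2 : μ (L ∩ {l | (l, p) ∈ E}) ≠ ⊤ := measure_ne_top_of_subset Set.inter_subset_left hLf
      rw [← ENNReal.ofReal_toReal h2]
      exact ENNReal.ofReal_le_ofReal (h p hp)
    · have e : (fun x => (x, p)) ⁻¹' (E ∩ L ×ˢ P) = ∅ := by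
        ext l
        simp [hp]
      rw [e, measure_empty]
      exact zero_le
  have h2 := mul_meas_ge_le_lintegral (μ := μ) (measurable_measure_prodMk_left (ν := μ) hF)
    (ENNReal.ofReal t)
  rw [← Measure.prod_apply hF] at h2
  have h3 : L ∩ {l | t < μ.real (P ∩ {p | (l, p) ∈ E})} ⊆
      {l | ENNReal.ofReal t ≤ μ (Prod.mk l ⁻¹' (E ∩ L ×ˢ P))} := by
    rintro l ⟨hl, hl'⟩
    have e : Prod.mk l ⁻¹' (E ∩ L ×ˢ P) = P ∩ {p | (l, p) ∈ E} := by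
      ext p
      simp [hl, and_comm]
    change ENNReal.ofReal t ≤ _
    rw [e]
    exact ENNReal.ofReal_le_of_le_toReal (le_of_lt hl')
  have h4 : ENNReal.ofReal t * μ (L ∩ {l | t < μ.real (P ∩ {p | (l, p) ∈ E})}) ≤
      ENNReal.ofReal a * μ P :=
    (mul_le_mul_right (measure_mono h3) _).trans (h2.trans h1)
  have h5 := ENNReal.toReal_mono (ENNReal.mul_ne_top ENNReal.ofReal_ne_top hPf) h4
  rw [ENNReal.toReal_mul, ENNReal.toReal_mul, ENNReal.toReal_ofReal ht.le,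
    ENNReal.toReal_ofReal ha] at h5
  rw [le_div_iff₀ ht, mul_comm]
  exact h5

theorem typ_meas {α : Type*} [MeasurableSpace α] {w : M.G → (M.V ≃ₗᵢ[ℝ] M.V)}
    (hW : ∀ l, w l ∈ M.W) (hw : ∀ u, MeasurableSet {l | w l = u}) {f : α → M.G}
    (hf : Measurable f) {P : (M.V ≃ₗᵢ[ℝ] M.V) → α → Prop} (hP : ∀ u, MeasurableSet {a | P u a}) :
    MeasurableSet {a | P (w (f a)) a} := by
  have e : {a | P (w (f a)) a} = ⋃ u ∈ M.W, f ⁻¹' {l | w l = u} ∩ {a | P u a} := by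
    ext a
    simp only [Set.mem_ofPred_eq, Set.mem_iUnion, Set.mem_inter_iff, Set.mem_preimage]
    exact ⟨fun h => ⟨_, hW _, rfl, h⟩, fun ⟨u, _, h1, h2⟩ => h1 ▸ h2⟩
  rw [e]
  exact M.W_finite.measurableSet_biUnion fun u _ => (hf (hw u)).inter (hP u)

theorem typ_log (a b : ℝ) {c : ℝ} (hc : 0 < c) :
    ∃ S₀ : ℝ, ∀ S, S₀ ≤ S → a * Real.log S + b ≤ c * S := by
  have h1 := (Real.isLittleO_log_id_atTop.const_mul_left a).bound (half_pos hc)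
  obtain ⟨S₀, h⟩ := Filter.eventually_atTop.1
    (h1.and ((Filter.eventually_ge_atTop (2 * b / c)).and (Filter.eventually_ge_atTop 0)))
  refine ⟨S₀, fun S hS => ?_⟩
  obtain ⟨h2, h3, h4⟩ := h S hS
  rw [id, Real.norm_of_nonneg h4, Real.norm_eq_abs] at h2
  rw [div_le_iff₀ hc] at h3
  have := le_abs_self (a * Real.log S)
  linarith

theorem typ_nf (κ : ℝ) (hκ : 0 < κ) : ∃ S₀ : ℝ, 2 ≤ S₀ ∧ ∀ S, S₀ ≤ S → ∀ (r : Fin M.d → ℝ)
    (τ : ℝ), M.WtFun r → ∀ g₀ ∈ M.K r * M.Z (S ^ 2), ∀ g₁ ∈ M.K r * M.Z (S ^ 2),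
      ‖M.A (g₀ * g₁⁻¹)‖ ≤ τ →
      g₀ * g₁⁻¹ ∈ M.K (fun i => r i + M.wmax * τ + κ * S) * M.Z (S ^ 3) := by
  obtain ⟨Cz, hCz, hz⟩ := M.Z_mul
  obtain ⟨Ca, hCa, ha⟩ := M.Ad_Z_K
  obtain ⟨Cp, hCp, hp⟩ := M.K_prod
  obtain ⟨S₀, hS₀⟩ := typ_log (Ca * 4) (Real.log (Cp * 3)) hκ
  refine ⟨max 2 (max Cz S₀), le_max_left _ _, fun S hS r τ hr => ?_⟩
  have hS2 : 2 ≤ S := (le_max_left _ _).trans hS
  have hSz : Cz ≤ S := ((le_max_left _ _).trans (le_max_right _ _)).trans hS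
  have hS1 := hS₀ S (((le_max_right _ _).trans (le_max_right _ _)).trans hS)
  rintro _ ⟨x₀, hx₀, z₀, hz₀, rfl⟩ _ ⟨x₁, hx₁, z₁, hz₁, rfl⟩ hτ
  have hsq : 0 ≤ S ^ 2 := sq_nonneg S
  have hzz : z₀ * z₁⁻¹ ∈ M.Z (Cz * S ^ 2) := hz _ hsq _ hz₀ _ (M.Z_inv hz₁)
  have hρ : 0 ≤ Cz * S ^ 2 := by positivity
  have hρ3 : Cz * S ^ 2 ≤ S ^ 3 := by nlinarith
  have hx₁e : x₁ ∈ M.e := M.K_sub_e r hx₁
  have hx₁' : x₁⁻¹ ∈ M.K r := by
    rw [M.inv_eq_neg (Or.inl (M.A_e hx₁e))]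
    exact (M.K_isLB r).sc.neg_mem _ hx₁
  have e : x₀ * z₀ * (x₁ * z₁)⁻¹ = x₀ * M.Ad (z₀ * z₁⁻¹) x₁⁻¹ * (z₀ * z₁⁻¹) := by
    rw [← M.conj_eq (Or.inl (M.A_e (M.inv_mem_e hx₁e)))]
    group
  have hA : M.A (x₀ * z₀ * (x₁ * z₁)⁻¹) = M.A (z₀ * z₁⁻¹) := by
    simp only [A_mul, A_inv, M.A_e hx₁e, M.A_e (M.K_sub_e r hx₀), zero_add]
  change ‖M.A (x₀ * z₀ * (x₁ * z₁)⁻¹)‖ ≤ τ at hτ
  rw [hA] at hτ
  have hτ0 : 0 ≤ τ := (norm_nonneg _).trans hτ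
  have hwm := M.wmax_nonneg
  have hwv : ∀ i, M.wv (M.A (z₀ * z₁⁻¹)) i ≤ M.wmax * τ := fun i =>
    (real_inner_le_norm _ _).trans (mul_le_mul (M.norm_wt_le i) hτ (norm_nonneg _) hwm)
  have hlog0 : 0 ≤ Real.log (2 + Cz * S ^ 2) := Real.log_nonneg (by linarith)
  have hlog : Real.log (2 + Cz * S ^ 2) ≤ 4 * Real.log S := by
    have h1 : 2 + Cz * S ^ 2 ≤ S ^ 4 := by
      have h2 : 8 ≤ S ^ 3 := by
        have := pow_le_pow_left₀ (by norm_num : (0 : ℝ) ≤ 2) hS2 3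
        linarith
      nlinarith
    have h2 := Real.log_le_log (by linarith) h1
    rw [Real.log_pow] at h2
    exact_mod_cast h2
  have h1 : M.Ad (z₀ * z₁⁻¹) x₁⁻¹ ∈
      M.K (fun i => r i + M.wmax * τ + Ca * Real.log (2 + Cz * S ^ 2)) :=
    M.K_mono (fun i _ => by have := hwv i; linarith) (ha _ r hρ hr _ hzz ⟨_, hx₁', rfl⟩)
  have h2 : x₀ ∈ M.K (fun i => r i + M.wmax * τ + Ca * Real.log (2 + Cz * S ^ 2)) :=
    M.K_mono (fun i _ => by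
      have h3 : 0 ≤ M.wmax * τ := by positivity
      have h4 : 0 ≤ Ca * Real.log (2 + Cz * S ^ 2) := by positivity
      linarith) hx₀
  have h3 := hp _ [x₀, M.Ad (z₀ * z₁⁻¹) x₁⁻¹] (by
    intro x hx
    simp only [List.mem_cons, List.not_mem_nil, or_false] at hx
    rcases hx with rfl | rfl
    · exact h2
    · exact h1)
  simp only [List.prod_cons, List.prod_nil, mul_one, List.length_cons, List.length_nil] at h3
  change x₀ * z₀ * (x₁ * z₁)⁻¹ ∈ _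
  rw [e]
  refine Set.mul_mem_mul (M.K_mono (fun i _ => ?_) h3) (M.Z_mono hρ hρ3 hzz)
  have h4 : Cp * (1 + ((0 + 1 + 1 : ℕ) : ℝ)) = Cp * 3 := by norm_num
  rw [h4]
  have h5 : Ca * Real.log (2 + Cz * S ^ 2) ≤ Ca * (4 * Real.log S) :=
    mul_le_mul_of_nonneg_left hlog (by linarith)
  linarith

theorem typ_exists (C₁ ε δ : ℝ) (hC₁ : 1 ≤ C₁) (hε : 0 < ε) (hδ : 0 < δ) :
    ∃ C₁' ε' δ' S₀ : ℝ, C₁ ≤ C₁' ∧ 0 < ε' ∧ ε' ≤ ε ∧ 0 < δ' ∧ δ' ≤ δ ∧ ∀ S : ℝ, S₀ ≤ S →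
      ∀ φ, Measurable φ → ∀ Ω B, M.Adm Ω S C₁ 0 B → ∀ w m, M.Aff φ Ω S C₁' ε' δ' B w m →
        ∀ Ω' ⊆ Ω, Convex ℝ Ω' → IsCompact Ω' → ∀ ζ ∈ M.Z (C₁ * S), M.A ζ ∈ Ω' →
          ∃ 𝒢, M.Typ φ Ω' ζ S C₁ ε δ B w m 𝒢 := by
  have : SFinite M.mE := inferInstanceAs (SFinite (subMu M.e))
  have : IsFiniteMeasureOnCompacts M.mE :=
    inferInstanceAs (IsFiniteMeasureOnCompacts (subMu M.e))
  have hC0 : 0 ≤ C₁ := by linarith
  obtain ⟨C', hC', hmul⟩ := M.mul_mem C₁ hC0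
  obtain ⟨S₀, hS₀2, hS₀⟩ := M.typ_nf (ε / 2) (half_pos hε)
  have hwm := M.wmax_nonneg
  obtain ⟨ε', hε'⟩ : ∃ ε' : ℝ, ε' = ε / (2 + 8 * M.wmax) := ⟨_, rfl⟩
  have hε'0 : 0 < ε' := by rw [hε']; positivity
  have hε'1 : ε' * (2 + 8 * M.wmax) = ε := by rw [hε']; field_simp
  have hε'w : 0 ≤ ε' * M.wmax := by positivity
  obtain ⟨N, hN⟩ : ∃ N : ℝ, N = C' ^ Module.finrank ℝ M.e := ⟨_, rfl⟩
  have hN0 : 0 < N := by rw [hN]; positivity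
  obtain ⟨δ', hδ'⟩ : ∃ δ' : ℝ, δ' = δ / (1 + 8 * N) := ⟨_, rfl⟩
  have hδ'0 : 0 < δ' := by rw [hδ']; positivity
  have hδ'1 : δ' * (1 + 8 * N) = δ := by rw [hδ']; field_simp
  have hδ'N : 0 ≤ δ' * N := by positivity
  refine ⟨C₁ + C', ε', δ', S₀, by linarith, hε'0, by linarith, hδ'0, by linarith, ?_⟩
  intro S hS φ hφ Ω B hadm w m haff Ω' hΩ' hconv hcomp ζ hζ hAζ
  have hS0 : 0 ≤ S := by linarith
  have hζ' : ζ ∈ M.Z ((C₁ + C') * S) := M.Z_mono (by positivity) (by nlinarith) hζ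
  have hBB : C₁ • B ⊆ (C₁ + C') • B := hadm.lb.sc.smul_mono (by rw [abs_of_nonneg hC0]; linarith)
  have hKK : M.K (M.h Ω') ⊆ M.K (M.h Ω) := M.K_mono fun i _ => by
    obtain ⟨v, hv, e⟩ := M.exists_h hcomp ⟨_, hAζ⟩ i
    rw [e]
    exact M.le_h hadm.compact (hΩ' hv) i
  have hKs : C' • M.K (M.h Ω') ⊆ (C₁ + C') • M.K (M.h Ω') :=
    (M.K_isLB _).sc.smul_mono (by rw [abs_of_nonneg (by linarith)]; linarith)
  have hLc : IsCompact (C₁ • B) := hadm.lb.compact.smul C₁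
  have hLc' : IsCompact ((C₁ + C') • B) := hadm.lb.compact.smul _
  have hPc : IsCompact (C' • M.K (M.h Ω')) := (M.K_isLB _).compact.smul C'
  have hmulm : Measurable fun q : M.G × M.G => q.1 * q.2 := continuous_mul.measurable
  have hAm : Measurable M.A := M.lie_cA.measurable
  have hφ0 : Measurable fun l => φ (l * ζ) := hφ.comp (continuous_mul_const ζ).measurable
  let Bad1 : Set M.G := {l | ε' * S < ‖M.A (φ (l * ζ)) - w l (M.A ζ) - m l‖}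
  let E2 : Set (M.G × M.G) := {q | w (q.1 * q.2) ≠ w q.1 ∨ ε' * S < ‖m (q.1 * q.2) - m q.1‖}
  let E3 : Set (M.G × M.G) := {q | (φ (q.1 * ζ))⁻¹ * φ (q.1 * q.2 * ζ) ∉
    M.K (fun i => M.h (w q.1 '' Ω') i - M.wv (w q.1 (M.A ζ)) i + ε' * S) * M.Z (S ^ 2)}
  have hB1 : MeasurableSet Bad1 :=
    M.typ_meas haff.memW haff.meas_w measurable_id
      (P := fun u l => ε' * S < ‖M.A (φ (l * ζ)) - u (M.A ζ) - m l‖) fun u =>
        measurableSet_lt measurable_const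
          (((hAm.comp hφ0).sub_const _).sub haff.meas_m).norm
  have hE2 : MeasurableSet E2 := by
    refine MeasurableSet.union (s₁ := {q : M.G × M.G | w (q.1 * q.2) ≠ w q.1})
      (s₂ := {q : M.G × M.G | ε' * S < ‖m (q.1 * q.2) - m q.1‖}) ?_ ?_
    · exact M.typ_meas haff.memW haff.meas_w measurable_fst
        (P := fun u (q : M.G × M.G) => w (q.1 * q.2) ≠ u) fun u => (hmulm (haff.meas_w u)).compl
    · exact measurableSet_lt measurable_const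
        ((haff.meas_m.comp hmulm).sub (haff.meas_m.comp measurable_fst)).norm
  have hE3 : MeasurableSet E3 := by
    have h1 : Measurable fun q : M.G × M.G => (φ (q.1 * ζ))⁻¹ * φ (q.1 * q.2 * ζ) :=
      hmulm.comp ((continuous_inv.measurable.comp (hφ0.comp measurable_fst)).prodMk
        (hφ0.comp hmulm))
    exact M.typ_meas haff.memW haff.meas_w measurable_fst
      (P := fun u (q : M.G × M.G) => (φ (q.1 * ζ))⁻¹ * φ (q.1 * q.2 * ζ) ∉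
        M.K (fun i => M.h (u '' Ω') i - M.wv (u (M.A ζ)) i + ε' * S) * M.Z (S ^ 2)) fun u =>
      (h1 ((M.K_isLB _).compact.mul (M.Z_isLB _).compact).measurableSet).compl
  have hB0 : 0 ≤ M.mE.real B := measureReal_nonneg
  have hK0 := M.mE_K_pos (M.h Ω')
  obtain ⟨hm1, hm2⟩ := typ_markov M.mE hLc.measurableSet hPc.measurableSet
    hLc.measure_lt_top.ne hPc.measure_lt_top.ne (hE2.union hE3)
    (a := 2 * δ' * M.mE.real B) (t := M.mE.real (M.K (M.h Ω')) / 4) (by positivity)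
    (by positivity) (fun p hp => by
      have h2 := haff.a2 p (Set.smul_set_mono hKK (hKs hp))
      have h3 := haff.a3 Ω' hΩ' hconv hcomp ζ hζ' hAζ p (hKs hp)
      have h4 : C₁ • B ∩ {l | (l, p) ∈ E2 ∪ E3} ⊆
          ((C₁ + C') • B ∩ {l | (l, p) ∈ E2}) ∪ ((C₁ + C') • B ∩ {l | (l, p) ∈ E3}) := by
        rintro l ⟨hl, hl' | hl'⟩
        · exact Or.inl ⟨hBB hl, hl'⟩
        · exact Or.inr ⟨hBB hl, hl'⟩
      have h5 := measureReal_mono (μ := M.mE) h4 (measure_ne_top_of_subset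
        (Set.union_subset Set.inter_subset_left Set.inter_subset_left) hLc'.measure_lt_top.ne)
      have h6 := measureReal_union_le (μ := M.mE) ((C₁ + C') • B ∩ {l | (l, p) ∈ E2})
        ((C₁ + C') • B ∩ {l | (l, p) ∈ E3})
      have h7 : M.mE.real ((C₁ + C') • B ∩ {l | (l, p) ∈ E2}) ≤ δ' * M.mE.real B := h2
      have h8 : M.mE.real ((C₁ + C') • B ∩ {l | (l, p) ∈ E3}) ≤ δ' * M.mE.real B := h3
      linarith)
  set Bad2 : Set M.G := {l | M.mE.real (M.K (M.h Ω')) / 4 <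
    M.mE.real (C' • M.K (M.h Ω') ∩ {p | (l, p) ∈ E2 ∪ E3})} with hBad2
  have hPv : M.mE.real (C' • M.K (M.h Ω')) = N * M.mE.real (M.K (M.h Ω')) := by
    rw [hN]
    exact subMu_real_smul M.e C' (by linarith) _
  refine ⟨(Bad1 ∪ Bad2)ᶜ, (hB1.union hm1).compl, ?_, fun l hl => ?_, ?_⟩
  · have h1 : C₁ • B \ (Bad1 ∪ Bad2)ᶜ ⊆ ((C₁ + C') • B ∩ Bad1) ∪ (C₁ • B ∩ Bad2) := by
      rintro l ⟨hl, hl'⟩
      rcases not_not.1 hl' with h | h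
      · exact Or.inl ⟨hBB hl, h⟩
      · exact Or.inr ⟨hl, h⟩
    have h2 := measureReal_mono (μ := M.mE) h1 (measure_ne_top_of_subset
      (Set.union_subset Set.inter_subset_left (Set.inter_subset_left.trans hBB))
      hLc'.measure_lt_top.ne)
    have h3 := measureReal_union_le (μ := M.mE) ((C₁ + C') • B ∩ Bad1) (C₁ • B ∩ Bad2)
    have h4 : M.mE.real ((C₁ + C') • B ∩ Bad1) ≤ δ' * M.mE.real B := haff.a1 ζ hζ' (hΩ' hAζ)
    have h5 : 2 * δ' * M.mE.real B * M.mE.real (C' • M.K (M.h Ω')) /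
        (M.mE.real (M.K (M.h Ω')) / 4) = 8 * N * δ' * M.mE.real B := by
      rw [hPv]
      field_simp
      ring
    rw [h5] at hm2
    rw [← hδ'1]
    nlinarith
  · have h1 : ¬ ε' * S < ‖M.A (φ (l * ζ)) - w l (M.A ζ) - m l‖ := fun h => hl (Or.inl h)
    have h2 : ε' * S ≤ ε * S := mul_le_mul_of_nonneg_right (by linarith) hS0
    linarith
  · intro l₀ hl₀ l₁ hl₁ hy
    have ha₀ : ‖M.A (φ (l₀ * ζ)) - w l₀ (M.A ζ) - m l₀‖ ≤ ε' * S :=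
      not_lt.1 fun h => hl₀ (Or.inl h)
    have ha₁ : ‖M.A (φ (l₁ * ζ)) - w l₁ (M.A ζ) - m l₁‖ ≤ ε' * S :=
      not_lt.1 fun h => hl₁ (Or.inl h)
    have hb₀ : M.mE.real (C' • M.K (M.h Ω') ∩ {p | (l₀, p) ∈ E2 ∪ E3}) ≤
        M.mE.real (M.K (M.h Ω')) / 4 := not_lt.1 fun h => hl₀ (Or.inr h)
    have hb₁ : M.mE.real (C' • M.K (M.h Ω') ∩ {p | (l₁, p) ∈ E2 ∪ E3}) ≤
        M.mE.real (M.K (M.h Ω')) / 4 := not_lt.1 fun h => hl₁ (Or.inr h)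
    have hy' : (l₀⁻¹ * l₁)⁻¹ ∈ C₁ • M.K (M.h Ω') := M.inv_mem (M.K_isLB _).sc (M.K_tame _) hy
    have hye : (l₀⁻¹ * l₁)⁻¹ ∈ M.e := by
      obtain ⟨x, hx, e⟩ := hy'
      rw [← e]
      exact M.e.smul_mem _ (M.K_sub_e _ hx)
    obtain ⟨p, hp, hp₀, hp₁⟩ : ∃ p ∈ M.K (M.h Ω'), (l₀, p) ∉ E2 ∪ E3 ∧
        (l₁, (l₀⁻¹ * l₁)⁻¹ * p) ∉ E2 ∪ E3 := by
      by_contra hne
      have h1 : M.K (M.h Ω') ⊆ (C' • M.K (M.h Ω') ∩ {p | (l₀, p) ∈ E2 ∪ E3}) ∪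
          (fun x => (l₀⁻¹ * l₁)⁻¹ * x) ⁻¹' (C' • M.K (M.h Ω') ∩ {p | (l₁, p) ∈ E2 ∪ E3}) := by
        intro p hp
        by_cases h : (l₀, p) ∈ E2 ∪ E3
        · exact Or.inl ⟨(M.K_isLB _).sc.subset_smul hC' hp, h⟩
        · exact Or.inr ⟨hmul _ (M.K_isLB _) (M.K_tame _) _ hy' _
            ((M.K_isLB _).sc.subset_smul hC₁ hp), not_not.1 fun h' => hne ⟨p, hp, h, h'⟩⟩
      have h2 := M.mE_preimage_mul_left hye (C' • M.K (M.h Ω') ∩ {p | (l₁, p) ∈ E2 ∪ E3})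
      have hf : ∀ T, M.mE (C' • M.K (M.h Ω') ∩ T) ≠ ⊤ := fun T =>
        measure_ne_top_of_subset Set.inter_subset_left hPc.measure_lt_top.ne
      have h3 := measureReal_mono (μ := M.mE) h1
        (measure_union_ne_top (hf _) (by rw [h2]; exact hf _))
      have h4 := measureReal_union_le (μ := M.mE) (C' • M.K (M.h Ω') ∩ {p | (l₀, p) ∈ E2 ∪ E3})
        ((fun x => (l₀⁻¹ * l₁)⁻¹ * x) ⁻¹' (C' • M.K (M.h Ω') ∩ {p | (l₁, p) ∈ E2 ∪ E3}))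
      have h5 : M.mE.real ((fun x => (l₀⁻¹ * l₁)⁻¹ * x) ⁻¹'
          (C' • M.K (M.h Ω') ∩ {p | (l₁, p) ∈ E2 ∪ E3})) =
          M.mE.real (C' • M.K (M.h Ω') ∩ {p | (l₁, p) ∈ E2 ∪ E3}) := by
        rw [measureReal_def, h2, measureReal_def]
      linarith
    have e : l₁ * ((l₀⁻¹ * l₁)⁻¹ * p) = l₀ * p := by group
    have hw₀ : w (l₀ * p) = w l₀ := not_not.1 fun h => hp₀ (Or.inl (Or.inl h))
    have hm₀ : ‖m (l₀ * p) - m l₀‖ ≤ ε' * S := not_lt.1 fun h => hp₀ (Or.inl (Or.inr h))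
    have hd₀ : (φ (l₀ * ζ))⁻¹ * φ (l₀ * p * ζ) ∈
        M.K (fun i => M.h (w l₀ '' Ω') i - M.wv (w l₀ (M.A ζ)) i + ε' * S) * M.Z (S ^ 2) :=
      not_not.1 fun h => hp₀ (Or.inr h)
    have hw₁ : w (l₁ * ((l₀⁻¹ * l₁)⁻¹ * p)) = w l₁ := not_not.1 fun h => hp₁ (Or.inl (Or.inl h))
    have hm₁ : ‖m (l₁ * ((l₀⁻¹ * l₁)⁻¹ * p)) - m l₁‖ ≤ ε' * S :=
      not_lt.1 fun h => hp₁ (Or.inl (Or.inr h))
    have hd₁ : (φ (l₁ * ζ))⁻¹ * φ (l₁ * ((l₀⁻¹ * l₁)⁻¹ * p) * ζ) ∈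
        M.K (fun i => M.h (w l₁ '' Ω') i - M.wv (w l₁ (M.A ζ)) i + ε' * S) * M.Z (S ^ 2) :=
      not_not.1 fun h => hp₁ (Or.inr h)
    rw [e] at hw₁ hm₁ hd₁
    have hww : w l₀ = w l₁ := hw₀.symm.trans hw₁
    rw [← hww] at hd₁ ha₁
    have hmm : ‖m l₀ - m l₁‖ ≤ 2 * (ε' * S) := by
      have h1 : m l₀ - m l₁ = (m (l₀ * p) - m l₁) - (m (l₀ * p) - m l₀) := by abel
      rw [h1]
      linarith [norm_sub_le (m (l₀ * p) - m l₁) (m (l₀ * p) - m l₀)]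
    have hεS : ε' * S * (2 + 8 * M.wmax) = ε * S := by rw [← hε'1]; ring
    have hεw : 0 ≤ ε' * S * M.wmax := by positivity
    refine ⟨hww, by linarith, ?_⟩
    have e2 : (φ (l₀ * ζ))⁻¹ * φ (l₀ * p * ζ) * ((φ (l₁ * ζ))⁻¹ * φ (l₀ * p * ζ))⁻¹ =
        (φ (l₀ * ζ))⁻¹ * φ (l₁ * ζ) := by group
    have h1 := hS₀ S hS _ (4 * (ε' * S)) (fun i j hij => by
      simp only [M.h_wtFun _ i j hij, M.wv_wtFun _ i j hij]) _ hd₀ _ hd₁ (by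
        rw [e2, A_mul, A_inv]
        have h1 : -M.A (φ (l₀ * ζ)) + M.A (φ (l₁ * ζ)) =
            (M.A (φ (l₁ * ζ)) - w l₀ (M.A ζ) - m l₁) -
              (M.A (φ (l₀ * ζ)) - w l₀ (M.A ζ) - m l₀) - (m l₀ - m l₁) := by abel
        rw [h1]
        linarith [norm_sub_le ((M.A (φ (l₁ * ζ)) - w l₀ (M.A ζ) - m l₁) -
              (M.A (φ (l₀ * ζ)) - w l₀ (M.A ζ) - m l₀)) (m l₀ - m l₁),
          norm_sub_le (M.A (φ (l₁ * ζ)) - w l₀ (M.A ζ) - m l₁)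
              (M.A (φ (l₀ * ζ)) - w l₀ (M.A ζ) - m l₀)])
    rw [e2] at h1
    refine Set.mul_subset_mul_right (M.K_mono fun i _ => ?_) h1
    linarith

end Vale.Agent.P188.Geo
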