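import Vale.Agent.P188.B.CoreB
import Vale.Agent.P188.B.Typ
import Vale.Agent.P188.B.HalfM

/-! A child box against the parent box.
Notation: `L = Lb η R`, `T = K hl`, `T' = K (hl + θ R)`, `P = ¼ (L + T')`, `R'' = (1 - D η) R`,
`K₃ = K (hb 0 R'' - tt)` with `tt = (c θ + 4 ε') R`.  Plan: the measure of the quadruples
`(l, t', y, τ) ∈ L × T' × K₃ × T` for which one of `t⁻¹ l t ∈ 𝒢₁`, `t⁻¹ l t y ∈ 𝒢₁`,
`l t' ∈ 𝒢₂ \ N`, `l t y (t⁻¹ t') τ = (l (t y t⁻¹)) (t' τ) ∈ 𝒢₂` fails is at most `C δ'` times the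
total (`mE_image_Ad`, right invariance, `conv_le`, `Ad_mem` with `Lb_ideal`, `mul_mem`;
`K₃ ⊆ L`).  Markov: for most `(l, t')` the first and third hold and `3/4` of the `(y, τ)` are
good.  For such a pair `Core` holds for `x₁ = l t ζ`, `x₂ = l t' ζ`, `g = t⁻¹ t'`,
`ρ = C₃ D η R` (`ln_conj_K`), using `rel` for the pairs `(t⁻¹ l t, t⁻¹ l t y)` and
`(l t', l t y g τ)`, whose quotient `Ad (t'⁻¹ t) y * τ` lies in `C₀ • K (h OmP)` (`Ad_shrink`).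
`core` and `ht` finish. -/

namespace Vale.Agent.P188.Geo
open scoped InnerProductSpace Pointwise
open MeasureTheory
variable (M : Geo)

theorem hf_ht {φ Ω ζ S C₁ ε δ B w m 𝒢} (h : M.Typ φ Ω ζ S C₁ ε δ B w m 𝒢) {l₀ l₁ : M.G}
    (h0 : l₀ ∈ 𝒢) (h1 : l₁ ∈ 𝒢) (h2 : l₀⁻¹ * l₁ ∈ C₁ • M.K (M.h Ω)) :
    ‖M.A ((φ (l₀ * ζ))⁻¹ * φ (l₁ * ζ))‖ ≤ 3 * (ε * S) := by
  obtain ⟨a, b, -⟩ := h.rel l₀ h0 l₁ h1 h2
  have e : M.A ((φ (l₀ * ζ))⁻¹ * φ (l₁ * ζ)) = (M.A (φ (l₁ * ζ)) - w l₁ (M.A ζ) - m l₁) -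
      (M.A (φ (l₀ * ζ)) - w l₀ (M.A ζ) - m l₀) - (m l₀ - m l₁) := by
    rw [M.A_mul, M.A_inv, a]
    abel
  rw [e]
  linarith [norm_sub_le ((M.A (φ (l₁ * ζ)) - w l₁ (M.A ζ) - m l₁) -
      (M.A (φ (l₀ * ζ)) - w l₀ (M.A ζ) - m l₀)) (m l₀ - m l₁),
    norm_sub_le (M.A (φ (l₁ * ζ)) - w l₁ (M.A ζ) - m l₁) (M.A (φ (l₀ * ζ)) - w l₀ (M.A ζ) - m l₀),
    h.ht l₀ h0, h.ht l₁ h1]

theorem hf_inner {s : M.V} (hs : ‖s‖ = 1) (j) : ⟪M.wt j, s⟫_ℝ ≤ ‖M.wt j‖ := by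
  simpa [hs] using real_inner_le_norm (M.wt j) s

theorem hf_det : ∃ C₂ Cl : ℝ, 1 ≤ C₂ ∧ 1 ≤ Cl ∧
    ∀ (φ : M.G → M.G) (i : Fin M.d) (R R'' η ρ tt u ε δ C₀ ρζ : ℝ) (t t' l ζ : M.G)
      (w₁ w₂ : M.G → (M.V ≃ₗᵢ[ℝ] M.V)) (m₁ m₂ : M.G → M.V) (𝒢₁ 𝒢₂ B₁ B₂ : Set M.G),
      C₂ ≤ C₀ → M.wt i ≠ 0 → 0 ≤ η → 0 ≤ R → R / 2 ≤ R'' → R'' ≤ R →
      (1 + 2 * η) * R - R'' ≤ ρ → Real.log (2 + R ^ 3) ≤ tt → tt ≤ ρ → w₂ (l * t') ∈ M.W →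
      M.A ζ = R'' • M.ray i → 0 ≤ ρζ → ζ ∈ M.Z ρζ →
      Cl * (((1 + 2 * η) * R - R'') * M.wmax + u + Real.log (2 + ρζ)) ≤ ρ → 0 ≤ u →
      M.c * u ≤ tt → 0 ≤ ε * R → 3 * (ε * R) ≤ tt → t ∈ M.K (M.hl R η (M.ray i)) →
      t' ∈ M.K (fun j => M.hl R η (M.ray i) j + u) →
      M.Typ (fun x => φ (t * x)) (Metric.closedBall 0 R'') ζ R C₀ ε δ B₁ w₁ m₁ 𝒢₁ →
      M.Typ φ (M.OmP R'' R η (M.ray i)) ζ R C₀ ε δ B₂ w₂ m₂ 𝒢₂ →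
      t⁻¹ * l * t ∈ 𝒢₁ → l * t' ∈ 𝒢₂ →
      3 / 4 * (M.mE.real (M.K (fun j => M.hb 0 R'' j - tt)) *
        M.mE.real (M.K (M.hl R η (M.ray i)))) ≤ (M.mE.prod M.mE).real
          (M.K (fun j => M.hb 0 R'' j - tt) ×ˢ M.K (M.hl R η (M.ray i)) ∩
            {p | t⁻¹ * l * t * p.1 ∈ 𝒢₁ ∧ l * t * (p.1 * (t⁻¹ * t') * p.2) ∈ 𝒢₂}) →
      M.Core φ i R R'' η ρ tt (l * t * ζ) (l * t' * ζ) ζ (t⁻¹ * t') (w₁ (t⁻¹ * l * t))
        (w₂ (l * t')) (M.K (fun j => M.hb 0 R'' j - tt) ×ˢ M.K (M.hl R η (M.ray i)) ∩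
          {p | t⁻¹ * l * t * p.1 ∈ 𝒢₁ ∧ l * t * (p.1 * (t⁻¹ * t') * p.2) ∈ 𝒢₂}) := by
  obtain ⟨Cm, cm, hm⟩ := M.mul_mem 1 zero_le_one
  obtain ⟨Cn, cn, hn⟩ := M.mul_mem Cm (by positivity)
  obtain ⟨Cl, cl, hl⟩ := M.ln_conj_K Cn (by positivity)
  obtain ⟨Cs, cs, hs⟩ := M.Ad_shrink Cm (by positivity)
  obtain ⟨Cp, cp, hp⟩ := M.mul_mem Cs (by positivity)
  refine ⟨Cp, Cl, cp, cl, fun φ i R R'' η ρ tt u ε δ C₀ ρζ t t' l ζ w₁ w₂ m₁ m₂ 𝒢₁ 𝒢₂ B₁ B₂ hC hi hη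
    hR0 hR hR' gap ht htρ hw hζ hρζ hζ' hρ hu hcu hε hε' tT tT' y1 y2 g1 g2 big => ?_⟩
  have hR'' : 0 ≤ R'' := by linarith
  have hηR : 0 ≤ η * R := by positivity
  have htt : 0 ≤ tt := by linarith
  have sT : M.K (M.hl R η (M.ray i)) ⊆ M.K (fun j => M.hl R η (M.ray i) j + u) :=
    M.K_mono fun j _ => by linarith
  have hT' := M.K_isLB (fun j => M.hl R η (M.ray i) j + u)
  have tm := M.K_tame (fun j => M.hl R η (M.ray i) j + u)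
  have t1 := M.lb_one (sT tT)
  have t2 := M.lb_one tT'
  have hg := hm _ hT' tm _ (M.inv_mem hT'.sc tm t1) _ t2
  have hg' := hm _ hT' tm _ (M.inv_mem hT'.sc tm t2) _ t1
  have ge : t⁻¹ * t' ∈ M.e := M.ub_sub_e (M.K_sub_e _) _ hg
  have cj : ∀ x ∈ M.e, M.Ad ζ⁻¹ x = ζ⁻¹ * x * ζ := fun x hx => by
    rw [← M.conj_eq (Or.inl (M.A_e hx)), inv_inv]
  have near : ∀ τ ∈ M.K (M.hl R η (M.ray i)), M.ln (M.Ad ζ⁻¹ (t⁻¹ * t' * τ)) ≤ ρ := fun τ hτ => by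
    rw [cj _ (M.mul_mem_e ge (M.K_sub_e _ hτ))]
    have w0 := M.wmax_nonneg
    have g0 : 0 ≤ (1 + 2 * η) * R - R'' := by linarith
    refine (hl _ ρζ (((1 + 2 * η) * R - R'') * M.wmax + u) hρζ (by positivity)
      (fun a b h => by simp only [Geo.hl, hb, h]) ζ hζ' (fun j _ => ?_) _
      (hn _ hT' tm _ hg _ (hT'.sc.subset_smul cm (sT hτ)))).trans hρ
    have h1 := M.hf_inner (M.norm_ray hi) j
    have h2 := M.norm_wt_le j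
    have h3 : 0 ≤ (1 + η) * R - R'' := by linarith
    simp only [Geo.hl, hb, wv, hζ, inner_smul_right]
    nlinarith [mul_le_mul_of_nonneg_left (h1.trans h2) h3, mul_le_mul_of_nonneg_left h2 hηR]
  refine ⟨hi, hη, hR, hR', gap, ht, htρ, hw, hζ, ge, ?_, near, ?_, Set.inter_subset_left, big,
    ?_, ?_⟩
  · have h1 := near 1 (M.K_isLB _).sc.zero_mem
    rw [mul_one, cj _ ge] at h1
    have e : (l * t * ζ)⁻¹ * (l * t' * ζ) = ζ⁻¹ * (t⁻¹ * t') * ζ := by group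
    rwa [e]
  · exact ((M.K_isLB _).compact.measurableSet.prod (M.K_isLB _).compact.measurableSet).inter
      ((y1.meas.preimage (Continuous.measurable (by fun_prop))).inter
        (y2.meas.preimage (Continuous.measurable (by fun_prop))))
  · rintro ⟨y, τ⟩ ⟨⟨hy, -⟩, q1, -⟩
    have h2 : (t⁻¹ * l * t)⁻¹ * (t⁻¹ * l * t * y) ∈ C₀ • M.K (M.h (Metric.closedBall 0 R'')) := by
      rw [inv_mul_cancel_left, M.h_closedBall 0 hR'']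
      exact (M.K_isLB _).sc.subset_smul (cp.trans hC) (M.K_mono (fun j _ => by linarith) hy)
    have h3 := M.hf_ht y1 g1 q1 h2
    obtain ⟨-, -, h4⟩ := y1.rel _ g1 _ q1 h2
    have e1 : t * (t⁻¹ * l * t * ζ) = l * t * ζ := by group
    have e2 : t * (t⁻¹ * l * t * y * ζ) = l * t * ζ * M.Ad ζ⁻¹ y := by
      rw [cj _ (M.K_sub_e _ hy)]
      group
    simp only [e1, e2] at h3 h4
    refine ⟨Set.mul_subset_mul_right (M.K_mono fun j _ => ?_) h4, h3.trans hε'⟩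
    rw [M.h_image_ball 0 hR'']
    simp only [hb, wv, map_zero, inner_zero_right, inner_neg_right]
    linarith
  · rintro ⟨y, τ⟩ ⟨⟨hy, hτ⟩, -, q2⟩
    have ye := M.K_sub_e _ hy
    have hO := M.h_OmP hR'' hηR (M.ray i)
    have h2 : (l * t')⁻¹ * (l * t * (y * (t⁻¹ * t') * τ)) ∈
        C₀ • M.K (M.h (M.OmP R'' R η (M.ray i))) := by
      have e : (l * t')⁻¹ * (l * t * (y * (t⁻¹ * t') * τ)) = M.Ad (t'⁻¹ * t) y * τ := by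
        rw [← M.conj_eq (Or.inl (M.A_e ye))]
        group
      rw [e]
      refine (M.K_isLB _).sc.smul_mono (s := Cp) (by rwa [abs_of_nonneg (by positivity)])
        (hp _ (M.K_isLB _) (M.K_tame _) _ (hs _ _ _ u hu (fun j _ => ?_) (fun j _ => ?_) _ hg' y hy)
          _ ((M.K_isLB _).sc.subset_smul cs (M.K_mono (fun j _ => ?_) hτ)))
      · rw [hO]
        linarith [le_max_right (M.hb 0 R'' j) (M.hl R η (M.ray i) j)]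
      · rw [hO]
        linarith [le_max_left (M.hb 0 R'' j) (M.hl R η (M.ray i) j)]
      · rw [hO]
        exact le_max_right _ _
    have h3 := M.hf_ht y2 g2 q2 h2
    obtain ⟨-, -, h4⟩ := y2.rel _ g2 _ q2 h2
    have e2 : l * t * (y * (t⁻¹ * t') * τ) * ζ = l * t * ζ * M.Ad ζ⁻¹ (y * (t⁻¹ * t') * τ) := by
      rw [cj _ (M.mul_mem_e (M.mul_mem_e ye ge) (M.K_sub_e _ hτ))]
      group
    simp only [e2] at h3 h4
    exact ⟨Set.mul_subset_mul_right (M.K_mono fun j _ => by linarith) h4, h3.trans hε'⟩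

theorem hf_num {D A Cl W c c₀ C' wm η ε ε' θ R Cζ k : ℝ} (hD : 1 ≤ D) (w0 : 0 ≤ W) (cl : 1 ≤ Cl)
    (hA : A = Cl * ((2 + D) * W + 2) + (2 + D)) (hη : 0 < η) (η1 : D * η ≤ 1 / 2)
    (η2 : A * η ≤ c₀) (cn : 0 ≤ c) (hk : k = c + 3) (e0 : 0 < ε') (e1 : ε' * (C' * k + 2) ≤ ε)
    (e2 : ε' ≤ η * wm) (e3 : ε' * k ≤ η) (hθ' : θ ≤ ε') (R1 : 1 ≤ R) (hζ : 1 ≤ Cζ)
    (l0 : Real.log (2 + Cζ * R ^ 3) ≤ ε' * R) :
    (∀ x, wm ≤ x → θ * R ≤ η * R * x) ∧ 0 ≤ k * (ε' * R) ∧ R / 2 ≤ (1 - D * η) * R ∧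
      (1 - D * η) * R ≤ R ∧ (1 + 2 * η) * R - (1 - D * η) * R ≤ A * (η * R) ∧
      Real.log (2 + R ^ 3) ≤ k * (ε' * R) ∧ k * (ε' * R) ≤ A * (η * R) ∧
      Cl * (((1 + 2 * η) * R - (1 - D * η) * R) * W + θ * R + Real.log (2 + Cζ * R)) ≤
        A * (η * R) ∧ c * (θ * R) ≤ k * (ε' * R) ∧ 3 * (ε' * R) ≤ k * (ε' * R) ∧
      A * (η * R) ≤ c₀ * R ∧ C' * (k * (ε' * R)) + ε' * R + ε' * R ≤ ε * R := by
  have A1 : 2 + D ≤ A := by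
    rw [hA]
    exact le_add_of_nonneg_left (by positivity)
  have k3 : 3 ≤ k := by linarith
  have e4 : ε' ≤ η := by nlinarith
  have R0 : 0 ≤ R := by linarith
  have R3 : R ≤ R ^ 3 := by nlinarith [one_le_pow₀ (n := 2) R1]
  have R4 : 0 ≤ R ^ 3 := by positivity
  have l1 : Real.log (2 + R ^ 3) ≤ ε' * R :=
    (Real.log_le_log (by positivity) (by nlinarith)).trans l0
  have l2 : Real.log (2 + Cζ * R) ≤ ε' * R :=
    (Real.log_le_log (by positivity) (by gcongr)).trans l0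
  have p1 : 0 ≤ ε' * R := by positivity
  have p2 : θ * R ≤ ε' * R := by gcongr
  have p3 : ε' * R ≤ η * R := by gcongr
  have p4 : k * (ε' * R) ≤ η * R := by linarith [mul_le_mul_of_nonneg_right e3 R0]
  have p5 : 0 ≤ η * R := by positivity
  have p7 := mul_le_mul_of_nonneg_right k3 p1
  have p8 := mul_le_mul_of_nonneg_right A1 p5
  have p9 := mul_le_mul_of_nonneg_right hD p5
  have gap : (1 + 2 * η) * R - (1 - D * η) * R = (2 + D) * (η * R) := by ring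
  refine ⟨fun x hx => ?_, by positivity, by linarith [mul_le_mul_of_nonneg_right η1 R0],
    by linarith, by linarith, by linarith, by linarith, ?_, ?_, p7,
    by linarith [mul_le_mul_of_nonneg_right η2 R0], by linarith [mul_le_mul_of_nonneg_right e1 R0]⟩
  · linarith [mul_le_mul_of_nonneg_left hx p5, mul_le_mul_of_nonneg_right e2 R0]
  · rw [gap, hA]
    have : Cl * ((2 + D) * (η * R) * W + θ * R + Real.log (2 + Cζ * R)) ≤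
        Cl * (((2 + D) * W + 2) * (η * R)) :=
      mul_le_mul_of_nonneg_left (by linarith) (by positivity)
    linarith
  · rw [hk]
    linarith [mul_le_mul_of_nonneg_left p2 cn]

theorem half (K C : ℝ) : ∃ C₀ : ℝ, 1 ≤ C₀ ∧ ∀ D : ℝ, 1 ≤ D → ∃ η₀ : ℝ, 0 < η₀ ∧
    ∀ η ε δ Cζ : ℝ, 0 < η → η ≤ η₀ → 0 < ε → 0 < δ → 1 ≤ Cζ →
    ∃ ε' δ' S₀ : ℝ, 0 < ε' ∧ ε' ≤ ε ∧ 0 < δ' ∧ ∀ θ : ℝ, 0 ≤ θ → θ ≤ ε' → ∀ R : ℝ, S₀ ≤ R →
      M.K (fun j => M.hb 0 ((1 - D * η) * R) j + η * R) ⊆ M.Lb η R →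
      ∀ φ, M.MQI K C φ → ∀ i, M.wt i ≠ 0 → ∀ t ∈ M.K (M.hl R η (M.ray i)),
      ∀ ζ ∈ M.Z (Cζ * R), M.A ζ = ((1 - D * η) * R) • M.ray i →
      ∀ w₁ m₁ 𝒢₁ w₂ m₂ 𝒢₂ (N : Set M.G), Measurable m₁ → Measurable m₂ → (∀ l, w₂ l ∈ M.W) →
        M.Typ (fun x => φ (t * x)) (Metric.closedBall 0 ((1 - D * η) * R)) ζ R C₀ ε' δ'
          (M.Ad t⁻¹ '' M.Lb η R) w₁ m₁ 𝒢₁ →
        M.Typ φ (M.OmP ((1 - D * η) * R) R η (M.ray i)) ζ R C₀ ε' δ'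
          ((4 : ℝ)⁻¹ • (M.Lb η R + M.K (fun j => M.hl R η (M.ray i) j + θ * R))) w₂ m₂ 𝒢₂ →
        MeasurableSet N → (∀ l, l ∉ N → M.nu (w₂ l (M.ray i)) = M.nu (M.ray i)) →
        M.mE.real ((C₀ • (4 : ℝ)⁻¹ • (M.Lb η R + M.K (fun j => M.hl R η (M.ray i) j + θ * R))) ∩ N)
          ≤ δ' * M.mE.real ((4 : ℝ)⁻¹ • (M.Lb η R + M.K (fun j => M.hl R η (M.ray i) j + θ * R))) →
        (M.mE.prod M.mE).real {q | q.1 ∈ M.Lb η R ∧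
            q.2 ∈ M.K (fun j => M.hl R η (M.ray i) j + θ * R) ∧
            ε * R < ‖m₁ (t⁻¹ * q.1 * t) - m₂ (q.1 * q.2)‖} ≤
          δ * (M.mE.real (M.Lb η R) *
            M.mE.real (M.K (fun j => M.hl R η (M.ray i) j + θ * R))) := by
  have := M.hf_sf
  obtain ⟨C₁, Cb, c1, cb, hm⟩ := M.hf_meas
  obtain ⟨C₂, Cl, c2, cl, hd⟩ := M.hf_det
  obtain ⟨c₀, C', c0, c', hc⟩ := M.core K C
  obtain ⟨wm, wm0, hwm⟩ := M.exists_wmin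
  have w0 := M.wmax_nonneg
  refine ⟨C₁ + C₂, by linarith, fun D hD => ?_⟩
  obtain ⟨A, hA⟩ : ∃ A, A = Cl * ((2 + D) * M.wmax + 2) + (2 + D) := ⟨_, rfl⟩
  have A1 : 2 + D ≤ A := by
    rw [hA]
    exact le_add_of_nonneg_left (by positivity)
  have A0 : 0 < A := by linarith
  refine ⟨min (1 / (2 * D)) (c₀ / A), by positivity, fun η ε δ Cζ hη hη₀ hε hδ hζ => ?_⟩
  have η1 : D * η ≤ 1 / 2 := by
    have := (le_div_iff₀ (by positivity)).1 (hη₀.trans (min_le_left _ _))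
    linarith
  have η2 : A * η ≤ c₀ := by
    have := (le_div_iff₀ A0).1 (hη₀.trans (min_le_right _ _))
    linarith
  obtain ⟨k, hk⟩ : ∃ k : ℝ, k = M.c + 3 := ⟨_, rfl⟩
  have cn : (0 : ℝ) ≤ M.c := Nat.cast_nonneg _
  have k3 : 3 ≤ k := by linarith
  obtain ⟨ε', hε'⟩ : ∃ ε', ε' = min (ε / (C' * k + 2)) (min (η * wm) (η / k)) := ⟨_, rfl⟩
  have e0 : 0 < ε' := by rw [hε']; positivity
  have e1 : ε' * (C' * k + 2) ≤ ε :=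
    (le_div_iff₀ (by positivity)).1 (hε' ▸ min_le_left _ _)
  have e2 : ε' ≤ η * wm := hε' ▸ (min_le_right _ _).trans (min_le_left _ _)
  have e3 : ε' * k ≤ η :=
    (le_div_iff₀ (by positivity)).1 (hε' ▸ (min_le_right _ _).trans (min_le_right _ _))
  obtain ⟨S₀, S1, hS⟩ := hf_log e0 (zero_le_one.trans hζ)
  have e4 : ε' ≤ ε := by nlinarith [mul_nonneg (zero_le_one.trans c') (by linarith : 0 ≤ k)]
  refine ⟨ε', δ / Cb, S₀, e0, e4, by positivity, fun θ hθ hθ' R hR hL φ hφ i hi t ht ζ ζ1 ζ2 w₁ m₁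
    𝒢₁ w₂ m₂ 𝒢₂ N _ _ hw y1 y2 mN hN bN => ?_⟩
  have R1 : 1 ≤ R := S1.trans hR
  have R0 : 0 ≤ R := zero_le_one.trans R1
  obtain ⟨n1, n2, n3, n4, n5, n6, n7, n8, n9, n10, n11, n12⟩ :=
    hf_num hD w0 cl hA hη η1 η2 cn hk e0 e1 e2 e3 hθ' R1 hζ (hS R hR)
  have p6 : 0 ≤ θ * R := mul_nonneg hθ R0
  have sT : M.K (M.hl R η (M.ray i)) ⊆ M.K (fun j => M.hl R η (M.ray i) j + θ * R) :=
    M.K_mono fun j _ => le_add_of_nonneg_right p6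
  have h1 := hm (C₁ + C₂) (δ / Cb) (M.Lb η R) (M.K (M.hl R η (M.ray i)))
    (M.K (fun j => M.hl R η (M.ray i) j + θ * R))
    (M.K (fun j => M.hb 0 ((1 - D * η) * R) j - k * (ε' * R))) 𝒢₁ 𝒢₂ N t
    (le_add_of_nonneg_right (zero_le_one.trans c2)) (div_pos hδ (one_pos.trans_le cb)).le
    (M.Lb_isLB hη.le R0) (M.K_isLB _) (M.Lb_sub_e η R) (M.K_sub_e _)
    (fun x hx => M.Lb_ideal η R x (M.K_mono (fun j hj => M.hl_le (M.norm_ray hi) R0 hη.le j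
      (n1 _ (hwm j hj))) hx))
    (M.K_isLB _).compact (M.K_isLB _).compact sT
    ((M.K_mono fun j _ => (sub_le_self _ n2).trans
      (le_add_of_nonneg_right (mul_nonneg hη.le R0))).trans hL) (sT ht) (M.Lb_pos η R) y1.meas
    y2.meas mN y1.most y2.most bN
  rw [mul_div_cancel₀ _ (one_pos.trans_le cb).ne'] at h1
  refine le_trans (measureReal_mono ?_
    (ne_top_of_le_ne_top (hf_prod_fin M.mE M.mE (M.hf_fin (M.Lb_isLB hη.le R0).compact)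
      (M.hf_fin (M.K_isLB (fun j => M.hl R η (M.ray i) j + θ * R)).compact)) (measure_mono ?_))) h1
  swap
  · exact fun q hq => ⟨hq.1, hq.2.1⟩
  refine fun q hq => ⟨hq.1, hq.2.1, fun g => ?_⟩
  obtain ⟨g1, g2, g3, g4⟩ := g
  have h2 := hd φ i R ((1 - D * η) * R) η (A * (η * R)) (k * (ε' * R)) (θ * R) ε' (δ / Cb)
    (C₁ + C₂) (Cζ * R) t q.2 q.1 ζ w₁ w₂ m₁ m₂ 𝒢₁ 𝒢₂ _ _
    (le_add_of_nonneg_left (zero_le_one.trans c1)) hi hη.le R0 n3 n4 n5 n6 n7 (hw _) ζ2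
    (mul_nonneg (zero_le_one.trans hζ) R0) ζ1 n8 p6 n9 (mul_nonneg e0.le R0) n10 ht hq.2.1
    y1 y2 g1 g2 g4
  have h3 := hc φ i R _ η _ _ _ _ ζ _ _ _ _ hφ R1 n11 h2 (hN _ g3)
  have h4 := y1.ht _ g1
  have h5 := y2.ht _ g2
  have e : t * (t⁻¹ * q.1 * t * ζ) = q.1 * t * ζ := by group
  simp only [e] at h4
  have h6 : ∀ a b x y : M.V, ‖x - y‖ ≤ ‖a - b‖ + ‖a - x‖ + ‖b - y‖ := fun a b x y => by
    have e : x - y = (a - b) - (a - x) + (b - y) := by abel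
    rw [e]
    exact (norm_add_le _ _).trans (add_le_add_left (norm_sub_le _ _) _)
  exact (hq.2.2.trans_le (((h6 _ _ _ _).trans (add_le_add (add_le_add h3 h4) h5)).trans n12)).false

end Vale.Agent.P188.Geo
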