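import Vale.Agent.P188.B.Half

/-! Deterministic and measure-theoretic halves of `nu_most`. -/

namespace Vale.Agent.P188.Geo
open scoped InnerProductSpace Pointwise
open MeasureTheory
variable (M : Geo)

theorem nud_gap : ∃ g : ℝ, 0 < g ∧ ∀ w ∈ M.W, ∀ j,
    M.nu (w (M.ray j)) < M.nu (M.ray j) → g ≤ M.nu (M.ray j) - M.nu (w (M.ray j)) := by
  have hf : {p : (M.V ≃ₗᵢ[ℝ] M.V) × Fin M.d | p.1 ∈ M.W ∧
      M.nu (p.1 (M.ray p.2)) < M.nu (M.ray p.2)}.Finite :=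
    (M.W_finite.prod Set.finite_univ).subset fun p hp => ⟨hp.1, trivial⟩
  rcases Set.eq_empty_or_nonempty {p : (M.V ≃ₗᵢ[ℝ] M.V) × Fin M.d | p.1 ∈ M.W ∧
      M.nu (p.1 (M.ray p.2)) < M.nu (M.ray p.2)} with h | h
  · exact ⟨1, one_pos, fun w hw j hj => absurd h (Set.nonempty_iff_ne_empty.1 ⟨(w, j), hw, hj⟩)⟩
  · obtain ⟨p, hp, hm⟩ := Set.exists_min_image _
      (fun p => M.nu (M.ray p.2) - M.nu (p.1 (M.ray p.2))) hf h
    exact ⟨_, sub_pos.2 hp.2, fun w hw j hj => hm (w, j) ⟨hw, hj⟩⟩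

theorem nud_ray {s : M.V} (hs : ‖s‖ = 1) {i} (h : M.OnRay s i) : ⟪M.wt i, s⟫_ℝ = ‖M.wt i‖ := by
  conv_lhs => rw [h.2]
  rw [inner_smul_left, real_inner_self_eq_norm_sq, hs]
  simp

theorem nud_ub : ∃ c₀ : ℝ → ℝ, ∃ Cu : ℝ, (∀ a, 1 ≤ a → 0 < c₀ a) ∧ 1 ≤ Cu ∧ ∀ a : ℝ, 1 ≤ a →
    ∀ w ∈ M.W, ∀ j, M.wt j ≠ 0 → ∀ R₁ θ u : ℝ, 0 ≤ θ → θ ≤ c₀ a * R₁ → 0 ≤ u → u ≤ c₀ a * R₁ →
      M.mE.real (M.K (fun i => M.hb (-(R₁ • w (M.ray j))) R₁ i + u) *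
        M.K (fun i => M.hb 0 θ i + a * u) * M.K (fun _ => a * u)) ≤
      Cu * Real.exp (M.Phi (M.hb 0 R₁) + M.nu (w (M.ray j)) * θ + (M.d * M.c + Cu * a) * u) := by
  obtain ⟨γ, γ0, -, hγ⟩ := M.angle_gap
  obtain ⟨wm, wm0, hwm⟩ := M.exists_wmin
  obtain ⟨Cm, cm, hm⟩ := M.mul_mem 1 zero_le_one
  obtain ⟨Cn, cn, hn⟩ := M.mul_mem Cm (by positivity)
  obtain ⟨Cu, cu, hu⟩ := M.ub (Cm + Cn) (by linarith)
  have w0 := M.wmax_nonneg
  refine ⟨fun a => γ * wm / (2 * M.c * (M.wmax + a) + 1), Cu, fun a ha => by positivity, cu,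
    fun a ha w hw j hj R₁ θ u hθ hθ' hu0 hu' => ?_⟩
  have hs : ‖w (M.ray j)‖ = 1 := by rw [w.norm_map, M.norm_ray hj]
  obtain ⟨κ, hκ⟩ : ∃ κ, κ = γ * wm / (2 * M.c * (M.wmax + a) + 1) := ⟨_, rfl⟩
  have κ0 : 0 < κ := by rw [hκ]; positivity
  have κ1 : κ * (2 * M.c * (M.wmax + a) + 1) = γ * wm := by
    rw [hκ, div_mul_cancel₀ _ (by positivity)]
  beta_reduce at hθ' hu'
  rw [← hκ] at hθ' hu'
  have R0 : 0 ≤ R₁ := nonneg_of_mul_nonneg_right (hu0.trans hu') κ0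
  have au : u ≤ a * u := le_mul_of_one_le_left hu0 ha
  have hb1 : ∀ i, M.hb (-(R₁ • w (M.ray j))) R₁ i = R₁ * (‖M.wt i‖ - ⟪M.wt i, w (M.ray j)⟫_ℝ) :=
    fun i => by simp only [hb, inner_neg_right, inner_smul_right]; ring
  have hb2 : ∀ i, M.hb 0 θ i = θ * ‖M.wt i‖ := fun i => by simp [hb]
  have hb3 : ∀ i, 0 ≤ M.hb (-(R₁ • w (M.ray j))) R₁ i := fun i => by
    rw [hb1]
    exact mul_nonneg R0 (sub_nonneg.2 (M.hf_inner hs i))
  have hb4 : ∀ i, M.OnRay (w (M.ray j)) i → M.hb (-(R₁ • w (M.ray j))) R₁ i = 0 := fun i hi => by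
    rw [hb1, M.nud_ray hs hi, sub_self, mul_zero]
  have p0 : 0 ≤ θ * M.wmax := by positivity
  have h1 := hu (w (M.ray j)) (fun i => M.hb (-(R₁ • w (M.ray j))) R₁ i + u)
    (fun i => max (M.hb (-(R₁ • w (M.ray j))) R₁ i) (M.hb 0 θ i) + a * u) (θ * M.wmax + a * u) 0 θ
    (a * u) 1 hs (by linarith) (by linarith) M.e.zero_mem (fun i _ => by linarith [hb3 i])
    (fun i hi => by rw [hb4 i hi]; linarith) (fun i hi hi' => ?_)
    (fun i _ => by linarith [hb3 i])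
    (fun i hi => by rw [hb4 i hi, hb2, max_eq_right (by positivity)])
  · have h2 := M.Phi_le_add (r := M.hb (-(R₁ • w (M.ray j))) R₁) hu0
      (r' := fun i => M.hb (-(R₁ • w (M.ray j))) R₁ i + u) fun i _ => le_rfl
    rw [M.Phi_hb] at h2
    refine (measureReal_mono ?_ (ne_top_of_le_ne_top (M.hf_fin (((M.K_isLB _).compact.smul _).mul
      ((M.K_isLB _).compact.smul _))) (measure_mono Set.inter_subset_left))).trans
      (h1.trans (mul_le_mul_of_nonneg_left (Real.exp_le_exp.2 (by linarith)) (by positivity)))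
    rintro _ ⟨_, ⟨x, hx, y, hy, rfl⟩, z, hz, rfl⟩
    have up : ∀ {r : Fin M.d → ℝ} {b : ℝ} {x : M.G}, x ∈ b • M.K r → 0 ≤ b → b ≤ Cm + Cn →
        x ∈ (Cm + Cn) • M.K r := fun hx ha hab =>
      (M.K_isLB _).sc.smul_mono (by rwa [abs_of_nonneg ha]) hx
    refine ⟨⟨x, up (M.lb_one hx) zero_le_one (by linarith), y * z, up (hm _ (M.K_isLB _)
      (M.K_tame _) y (M.lb_one (M.K_mono (fun i _ => ?_) hy)) z
      (M.lb_one (M.K_mono (fun i _ => by linarith) hz))) (by positivity) (by linarith),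
      (mul_assoc x y z).symm⟩, 1, rfl, x * y * z, up (hn _ (M.K_isLB _) (M.K_tame _) _
        (hm _ (M.K_isLB _) (M.K_tame _) x (M.lb_one (M.K_mono (fun i _ => ?_) hx)) y
          (M.lb_one (M.K_mono (fun i _ => ?_) hy))) z
        ((M.K_isLB _).sc.subset_smul cm (M.K_mono (fun i _ => ?_) hz))) (by positivity)
        (by linarith), one_mul _⟩
    · rw [hb2]
      linarith [mul_le_mul_of_nonneg_left (M.norm_wt_le i) hθ]
    · exact add_le_add (le_max_left _ _) au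
    · exact add_le_add_left (le_max_right _ _) _
    · exact le_add_of_nonneg_left (le_max_of_le_left (hb3 i))
  · have h2 := (hγ w hw j i hj hi).resolve_left hi'
    have h3 : γ * wm ≤ ‖M.wt i‖ - ⟪M.wt i, w (M.ray j)⟫_ℝ := by
      have : ⟪M.wt i, w (M.ray j)⟫_ℝ ≤ (1 - γ) * ‖M.wt i‖ := h2
      linarith [mul_le_mul_of_nonneg_left (hwm i hi) γ0.le]
    have h4 : θ * M.wmax + a * u ≤ κ * R₁ * (M.wmax + a) := by
      linarith [mul_le_mul_of_nonneg_right hθ' w0,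
        mul_le_mul_of_nonneg_left hu' (zero_le_one.trans ha)]
    have h5 := mul_le_mul_of_nonneg_left h4 (by positivity : (0 : ℝ) ≤ 2 * M.c)
    have h6 := mul_le_mul_of_nonneg_left h3 R0
    rw [hb1]
    rw [← κ1] at h6
    linarith [mul_nonneg κ0.le R0]

theorem nud_det (K C : ℝ) : ∃ c₀ Cn : ℝ, 0 < c₀ ∧ 1 ≤ Cn ∧ ∀ φ, M.MQI K C φ → ∀ w ∈ M.W, ∀ j,
    M.wt j ≠ 0 → ∀ (R₁ θ u ρ : ℝ) (x₁ x₀ ζ : M.G) (Gd : Set (M.G × M.G)), 0 ≤ θ → θ ≤ c₀ * R₁ →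
      1 ≤ u → u ≤ c₀ * R₁ → 0 ≤ ρ → Real.log (2 + ρ) ≤ u →
      2⁻¹ * (M.mE.real (M.K (M.hb 0 R₁)) * M.mE.real (M.K (M.hb (R₁ • M.ray j) θ))) ≤
        (M.mE.prod M.mE).real Gd →
      (∀ q ∈ Gd, q.1 ∈ M.K (M.hb 0 R₁) ∧ q.2 ∈ M.K (M.hb (R₁ • M.ray j) θ) ∧
        ∃ x ∈ M.K (fun i => M.hb (-(R₁ • w (M.ray j))) R₁ i + u), ∃ ζ' ∈ M.Z ρ,
        ∃ x' ∈ M.K (fun i => M.hb 0 θ i + u), ∃ ζ'' ∈ M.Z ρ, ‖M.A ζ'‖ ≤ u ∧ ‖M.A ζ''‖ ≤ u ∧
          φ (x₁ * M.Ad ζ⁻¹ (q.1 * q.2)) = x₀ * (x * ζ') * (x' * ζ'')) →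
      M.nu (M.ray j) * θ ≤ M.nu (w (M.ray j)) * θ + Cn * u := by
  have := M.hf_sf
  obtain ⟨c₀, Cu, c0, cu, hu⟩ := M.nud_ub
  obtain ⟨Ca, ca, ha⟩ := M.Ad_Z_K
  obtain ⟨Cz, cz, hz⟩ := M.Z_mul
  obtain ⟨Cv, cv, hv⟩ := M.vol_transfer K C
  obtain ⟨Cp, cp, hp⟩ := M.prod_lb
  have w0 := M.wmax_nonneg
  obtain ⟨a, ea⟩ : ∃ a, a = 1 + M.wmax + Ca + Cv * (2 + Cz) := ⟨_, rfl⟩
  have a0 : 0 ≤ Cv * (2 + Cz) := by positivity
  have a1 : 1 ≤ a := by linarith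
  refine ⟨c₀ a, Cp + Cv * Cz + Cu + (M.d * M.c + Cu * a), c0 a a1, ?_,
    fun φ hφ w hw j hj R₁ θ u ρ x₁ x₀ ζ Gd hθ hθ' u1 hu' hρ hl big hG => ?_⟩
  · have : 0 ≤ Cv * Cz + Cu + (M.d * M.c + Cu * a) := by positivity
    linarith
  have u0 : 0 ≤ u := by linarith
  have h1 := hu a a1 w hw j hj R₁ θ u hθ hθ' u0 hu'
  have l1 : Real.log (2 + Cz * ρ) ≤ Cz * u := by
    have h2 : Real.log (2 + Cz * ρ) ≤ Real.log (Cz * (2 + ρ)) :=
      Real.log_le_log (by positivity) (by linarith)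
    rw [Real.log_mul (by positivity) (by positivity)] at h2
    linarith [Real.log_le_sub_one_of_pos (by positivity : 0 < Cz),
      mul_le_mul_of_nonneg_left u1 (by linarith : 0 ≤ Cz - 1)]
  obtain ⟨D, eD⟩ : ∃ D, D = M.K (fun i => M.hb (-(R₁ • w (M.ray j))) R₁ i + u) *
    M.K (fun i => M.hb 0 θ i + a * u) := ⟨_, rfl⟩
  rw [← eD] at h1
  have cD : IsCompact D := eD ▸ (M.K_isLB _).compact.mul (M.K_isLB _).compact
  have De : D ⊆ M.e := by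
    rw [eD]
    rintro _ ⟨x, hx, y, hy, rfl⟩
    exact M.mul_mem_e (M.K_sub_e _ hx) (M.K_sub_e _ hy)
  have cW : IsCompact ({x₀} * D * (M.Z (Cz * ρ) ∩ {z | ‖M.A z‖ ≤ 2 * u})) :=
    (isCompact_singleton.mul cD).mul ((M.Z_isLB _).compact.inter_right
      (isClosed_le M.lie_cA.norm continuous_const))
  have cA : Continuous (M.Ad ζ⁻¹) := (M.Ad ζ⁻¹).continuous_of_finiteDimensional
  have cY : IsCompact (M.Ad ζ⁻¹ '' (M.K (M.hb 0 R₁) * M.K (M.hb (R₁ • M.ray j) θ))) :=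
    ((M.K_isLB _).compact.mul (M.K_isLB _).compact).image cA
  obtain ⟨Y, eY⟩ : ∃ Y, Y = M.Ad ζ⁻¹ '' (M.K (M.hb 0 R₁) * M.K (M.hb (R₁ • M.ray j) θ)) ∩
    (fun z => φ (x₁ * z)) ⁻¹' ({x₀} * D * (M.Z (Cz * ρ) ∩ {z | ‖M.A z‖ ≤ 2 * u})) := ⟨_, rfl⟩
  have mY : MeasurableSet Y := eY ▸ cY.measurableSet.inter
    (cW.measurableSet.preimage (hφ.1.comp (Continuous.measurable (by fun_prop))))
  have h2 := hv φ hφ.2 x₁ x₀ Y D (Cz * ρ) (2 * u) mY ?_ De (by positivity) (by positivity) ?_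
  rotate_left
  · rw [eY]
    rintro _ ⟨⟨_, ⟨x, hx, y, hy, rfl⟩, rfl⟩, -⟩
    exact M.Ad_mem_e _ (M.mul_mem_e (M.K_sub_e _ hx) (M.K_sub_e _ hy))
  · rw [eY]
    rintro y ⟨-, _, ⟨_, rfl, x, hx, rfl⟩, z, ⟨z1, z2⟩, e⟩
    exact ⟨x, hx, z, z1, z2, e.symm⟩
  have h3 : M.mE (D * M.K fun _ => Cv * (2 * u + Real.log (2 + Cz * ρ))) ≤
      M.mE (D * M.K fun _ => a * u) := by
    refine measure_mono (Set.mul_subset_mul_left (M.K_mono fun i _ => ?_))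
    rw [ea]
    linarith [mul_le_mul_of_nonneg_left l1 (zero_le_one.trans cv), mul_nonneg w0 u0,
      mul_nonneg (zero_le_one.trans ca) u0]
  have h4 := ENNReal.toReal_mono (ENNReal.mul_ne_top ENNReal.ofReal_ne_top
    (M.hf_fin (cD.mul (M.K_isLB _).compact))) (h2.trans (mul_le_mul_right h3 _))
  rw [ENNReal.toReal_mul, ENNReal.toReal_ofReal (Real.exp_pos _).le] at h4
  have eA : M.mE (M.Ad ζ⁻¹ ⁻¹' Y) = M.mE Y := by
    rw [← Measure.map_apply cA.measurable mY, M.map_Ad_e]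
  have hs := M.norm_ray hj
  have h5 := hp (M.ray j) (M.hb 0 R₁) (M.hb (R₁ • M.ray j) θ) R₁ (R₁ + θ) 0 1 (M.Ad ζ⁻¹ ⁻¹' Y) hs
    le_rfl M.e.zero_mem (mY.preimage cA.measurable)
    (eA ▸ ne_top_of_le_ne_top (M.hf_fin cY) (measure_mono (eY ▸ Set.inter_subset_left)))
    (fun i _ => by simp [hb]) (fun i hi => by
      simp only [hb, inner_smul_right, M.nud_ray hs hi]; linarith)
    (big.trans (measureReal_mono ?_ (ne_top_of_le_ne_top (hf_prod_fin M.mE M.mE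
      (M.hf_fin (M.K_isLB (M.hb 0 R₁)).compact)
      (M.hf_fin (M.K_isLB (M.hb (R₁ • M.ray j) θ)).compact)) (measure_mono ?_))))
  rotate_left
  · intro q hq
    obtain ⟨q1, q2, x, hx, ζ', z1, x', hx', ζ'', z2, n1, n2, e⟩ := hG q hq
    refine ⟨q1, q2, ?_⟩
    rw [mul_one, eY]
    refine ⟨⟨_, ⟨_, q1, _, q2, rfl⟩, rfl⟩, x₀ * (x * M.Ad ζ' x'), ⟨_, rfl, _, ?_, rfl⟩, ζ' * ζ'',
      ⟨hz ρ hρ _ z1 _ z2, ?_⟩, ?_⟩
    · rw [eD]
      refine ⟨x, hx, _, M.K_mono (fun i _ => ?_) (ha ρ _ hρ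
        (fun a b h => by simp only [hb, h]) ζ' z1 ⟨x', hx', rfl⟩), rfl⟩
      have b1 : M.wv (M.A ζ') i ≤ M.wmax * u := (real_inner_le_norm _ _).trans
        (mul_le_mul (M.norm_wt_le i) n1 (norm_nonneg _) w0)
      rw [ea]
      linarith [mul_le_mul_of_nonneg_left hl (zero_le_one.trans ca), mul_nonneg a0 u0]
    · show ‖M.A (ζ' * ζ'')‖ ≤ 2 * u
      rw [M.A_mul]
      linarith [norm_add_le (M.A ζ') (M.A ζ'')]
    · show _ = φ (x₁ * M.Ad ζ⁻¹ (q.1 * q.2))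
      rw [e, ← M.conj_eq (Or.inl (M.A_e (M.K_sub_e _ hx')))]
      beta_reduce
      group
  · exact fun q hq => ⟨hq.1, hq.2.1⟩
  rw [Measure.real, eA] at h5
  have b : ∀ x : ℝ, 1 ≤ x → x ≤ Real.exp (x * u) := fun x hx => by
    linarith [Real.add_one_le_exp (x * u), le_mul_of_one_le_right (zero_le_one.trans hx) u1]
  have h6 := h5.trans (mul_le_mul (b Cp cp) (h4.trans (mul_le_mul
    (Real.exp_le_exp.2 (mul_le_mul_of_nonneg_left l1 (zero_le_one.trans cv)))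
    (h1.trans (mul_le_mul_of_nonneg_right (b Cu cu) (Real.exp_pos _).le)) measureReal_nonneg
    (Real.exp_pos _).le)) ENNReal.toReal_nonneg (Real.exp_pos _).le)
  rw [← Real.exp_add, ← Real.exp_add, ← Real.exp_add, Real.exp_le_exp] at h6
  linarith

theorem nud_meas (C₁ : ℝ) (h : 1 ≤ C₁) : ∃ C₂ : ℝ, C₁ ≤ C₂ ∧
    ∀ (C₀ δ' : ℝ) (B Y T 𝒢₁ 𝒢₂ : Set M.G), C₂ ≤ C₀ → 0 ≤ δ' → M.IsLB B → B ⊆ M.e → IsCompact Y →
      IsCompact T → Y ⊆ C₁ • B → T ⊆ C₁ • B → MeasurableSet 𝒢₁ → MeasurableSet 𝒢₂ →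
      M.mE.real ((C₀ • B) \ 𝒢₁) ≤ δ' * M.mE.real B → M.mE.real ((C₀ • B) \ 𝒢₂) ≤ δ' * M.mE.real B →
      M.mE.real ((C₁ • B) ∩ {l | ¬ (l ∈ 𝒢₁ ∧ 3 / 4 * (M.mE.real Y * M.mE.real T) ≤
        (M.mE.prod M.mE).real
          (Y ×ˢ T ∩ {p | l * p.1 ∈ 𝒢₁ ∧ l * p.1 ∈ 𝒢₂ ∧ l * (p.1 * p.2) ∈ 𝒢₂}))}) ≤
        13 * δ' * M.mE.real B := by
  have := M.hf_sf
  obtain ⟨Cm, cm, hm⟩ := M.mul_mem C₁ (by positivity)
  obtain ⟨Cn, cn, hn⟩ := M.mul_mem (C₁ + Cm) (by positivity)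
  refine ⟨C₁ + Cn, by linarith, fun C₀ δ' B Y T 𝒢₁ 𝒢₂ hC hδ hB eB cY cT sY sT m1 m2 b1 b2 => ?_⟩
  have up : ∀ {a b : ℝ} {x : M.G}, x ∈ a • B → 0 ≤ a → a ≤ b → x ∈ b • B := fun hx ha hab =>
    hB.sc.smul_mono (by rwa [abs_of_nonneg ha]) hx
  have tB := M.tame_of_e eB
  have s1 : ∀ 𝒢, M.mE.real ((C₀ • B) \ 𝒢) ≤ δ' * M.mE.real B → ∀ g ∈ (C₁ + Cm) • B,
      M.mE.real ((C₁ • B) ∩ {l | l * g ∉ 𝒢}) ≤ δ' * M.mE.real B := fun 𝒢 b g hg => by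
    have h1 := M.hf_two (A := C₁ • B) (A' := C₀ • B) (D := 𝒢ᶜ) (g := 1) M.e.zero_mem
      (M.ub_sub_e eB _ hg) (fun l hl => by
        rw [one_mul]
        exact up (hn B hB tB l (up hl (by positivity) (by linarith)) g hg) (by positivity)
          (by linarith)) (hB.compact.smul C₀)
    simp only [one_mul] at h1
    exact h1.trans b
  have fin := M.hf_fin (hB.compact.smul C₁)
  have f := fun S : Set M.G =>
    ne_top_of_le_ne_top fin (measure_mono (Set.inter_subset_left (t := S)))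
  have mE1 : MeasurableSet {z : M.G × M.G × M.G | z.1 * z.2.1 ∉ 𝒢₁ ∨ z.1 * z.2.1 ∉ 𝒢₂ ∨
      z.1 * (z.2.1 * z.2.2) ∉ 𝒢₂} :=
    (m1.compl.preimage (Continuous.measurable (by fun_prop))).union
      ((m2.compl.preimage (Continuous.measurable (by fun_prop))).union
        (m2.compl.preimage (Continuous.measurable (by fun_prop))))
  have mk := hf_markov M.mE (M.mE.prod M.mE) (hB.compact.smul C₁).measurableSet
    (cY.measurableSet.prod cT.measurableSet) fin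
    (hf_prod_fin M.mE M.mE (M.hf_fin cY) (M.hf_fin cT)) mE1 (κ := 4⁻¹)
    (a := 3 * δ' * M.mE.real B) (by positivity) (by positivity)
    fun p hp => by
      have y1 : p.1 ∈ (C₁ + Cm) • B := up (sY hp.1) (by positivity) (by linarith)
      have h1 := s1 _ b1 p.1 y1
      have h2 := s1 _ b2 p.1 y1
      have h3 := s1 _ b2 (p.1 * p.2)
        (up (hm B hB tB _ (sY hp.1) _ (sT hp.2)) (by positivity) (by linarith))
      refine (measureReal_mono (fun q hq => ?_) (measure_union_ne_top (f _)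
        (measure_union_ne_top (f _) (f _)))).trans ((measureReal_union_le _ _).trans
          ((add_le_add h1 ((measureReal_union_le _ _).trans (add_le_add h2 h3))).trans_eq
            (by ring)))
      exact hq.2.elim (fun h => Or.inl ⟨hq.1, h⟩) fun h =>
        Or.inr (h.elim (fun h => Or.inl ⟨hq.1, h⟩) fun h => Or.inr ⟨hq.1, h⟩)
  have h1 := s1 _ b1 1 (hB.sc.smul _).zero_mem
  simp only [mul_one] at h1
  refine (measureReal_mono (fun q hq => ?_) (measure_union_ne_top (f _) (f _))).trans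
    ((measureReal_union_le _ _).trans ((add_le_add h1 mk).trans_eq (by ring)))
  obtain ⟨q1, hq⟩ := hq
  by_contra hn
  simp only [Set.mem_union, not_or, Set.mem_inter_iff, q1, true_and,
    Set.mem_ofPred_eq, not_not] at hn
  obtain ⟨n1, n4⟩ := hn
  refine hq ⟨n1, ?_⟩
  have h4 := hf_compl (M.mE.prod M.mE) (measurable_prodMk_left (x := q) mE1)
    (hf_prod_fin M.mE M.mE (M.hf_fin cY) (M.hf_fin cT)) n4
  rw [hf_prod] at h4
  refine h4.trans_eq (congrArg _ ?_)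
  ext p
  simp only [Set.mem_sdiff, Set.mem_preimage, Set.mem_ofPred_eq, Set.mem_inter_iff, not_or, not_not]

end Vale.Agent.P188.Geo
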