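import Vale.Agent.P188.B.Typ
import Vale.Agent.P188.UB
import Vale.Agent.P188.B.NUD

/-! Colours preserve the rates `nu`.
Plan: fix `j`, `s₂ = ray j`, `R₁ = σ S / 2`, `θ = θ₀ σ S` with `θ₀` small against `angle_gap`,
`ζ = ι v`, `v = R₁ • s₂`, `Ω₁ = closedBall 0 R₁`, `Ω₂ = closedBall v θ`, typical sets `𝒢₁, 𝒢₂`
(`typ_exists`).  For most `l`: `l ∈ 𝒢₁` and for `3/4` of `(y, τ) ∈ K (hb 0 R₁) × K (hb v θ)`:
`l y ∈ 𝒢₁ ∩ 𝒢₂`, `l y τ ∈ 𝒢₂` (Fubini, Markov).  With `x₁ = l ζ`, `w = w l`, the displacement of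
`Ad ζ⁻¹ (y τ)` is `x ζ' x' ζ'' = x * Ad ζ' x' * (ζ' ζ'')` with `x ∈ K (hb (-w v) R₁ + ε S)`,
`x' ∈ K (hb 0 θ + ε S)`, heights `O (ε S)`.  `D = K r * K (hb 0 θ + C ε S)` is NOT inside
`K rQ`, so apply `ub` to the product with `rQ = max r (hb 0 θ) + C ε S` (on the ray `w s₂` one
has `r ≤ C ε S`, so `τQ = θ`, `τ = 0`).  `prod_lb` with `g = 1`, `τ₁ = R₁`, `τ₂ = R₁ + θ`;
`vol_transfer`; `Phi_hb`.  Result `nu s₂ θ ≤ nu (w s₂) θ + C ε S`; finitely many values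
(`W_finite`) give `nu s₂ ≤ nu (w s₂)`; union over `j`; `nu_perm`. -/

namespace Vale.Agent.P188.Geo
open scoped InnerProductSpace Pointwise
open MeasureTheory
variable (M : Geo)

theorem nu_h_mono {Ω Ω' : Set M.V} (h : IsCompact Ω) (h' : IsCompact Ω') (hn : Ω'.Nonempty)
    (hs : Ω' ⊆ Ω) : M.K (M.h Ω') ⊆ M.K (M.h Ω) := M.K_mono fun i _ => by
  obtain ⟨v, hv, e⟩ := M.exists_h h' hn i
  rw [e]
  exact M.le_h h (hs hv) i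

theorem nu_nf {φ Ω ζ S C₁ ε δ B w m 𝒢} (h : M.Typ φ Ω ζ S C₁ ε δ B w m 𝒢) {l₀ l₁ : M.G}
    (h0 : l₀ ∈ 𝒢) (h1 : l₁ ∈ 𝒢) (h2 : l₀⁻¹ * l₁ ∈ C₁ • M.K (M.h Ω)) (hε : 0 ≤ ε * S) :
    ∃ x ∈ M.K (fun i => M.h (w l₀ '' Ω) i - M.wv (w l₀ (M.A ζ)) i + 3 * (ε * S)),
      ∃ z ∈ M.Z (S ^ 3), ‖M.A z‖ ≤ 3 * (ε * S) ∧ φ (l₁ * ζ) = φ (l₀ * ζ) * (x * z) := by
  have h3 := M.hf_ht h h0 h1 h2
  obtain ⟨-, -, x, hx, z, hz, e⟩ := h.rel l₀ h0 l₁ h1 h2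
  beta_reduce at e
  rw [← e, M.A_mul, M.A_e (M.K_sub_e _ hx), zero_add] at h3
  exact ⟨x, M.K_mono (fun i _ => by linarith) hx, z, hz, h3, by rw [e, mul_inv_cancel_left]⟩

theorem nu_one (K C : ℝ) : ∃ c₀ Cn : ℝ, 0 < c₀ ∧ 1 ≤ Cn ∧ ∀ φ, M.MQI K C φ → ∀ j, M.wt j ≠ 0 →
    ∀ (R₁ θ S C₀ ε δ : ℝ) (ζ l : M.G) B w m 𝒢₁ 𝒢₂, 0 ≤ θ → θ ≤ c₀ * R₁ → 0 ≤ S → 1 ≤ C₀ →
      3 * (ε * S) ≤ c₀ * R₁ → Real.log (2 + S ^ 3) ≤ ε * S → M.A ζ = R₁ • M.ray j → w l ∈ M.W →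
      M.Typ φ (Metric.closedBall 0 R₁) ζ S C₀ ε δ B w m 𝒢₁ →
      M.Typ φ (Metric.closedBall (R₁ • M.ray j) θ) ζ S C₀ ε δ B w m 𝒢₂ → l ∈ 𝒢₁ →
      3 / 4 * (M.mE.real (M.K (M.hb 0 R₁)) * M.mE.real (M.K (M.hb (R₁ • M.ray j) θ))) ≤
        (M.mE.prod M.mE).real (M.K (M.hb 0 R₁) ×ˢ M.K (M.hb (R₁ • M.ray j) θ) ∩
          {p | l * p.1 ∈ 𝒢₁ ∧ l * p.1 ∈ 𝒢₂ ∧ l * (p.1 * p.2) ∈ 𝒢₂}) →
      M.nu (M.ray j) * θ ≤ M.nu (w l (M.ray j)) * θ + Cn * (3 * (ε * S)) := by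
  obtain ⟨c₀, Cn, c0, cn, hd⟩ := M.nud_det K C
  refine ⟨c₀, Cn, c0, cn, fun φ hφ j hj R₁ θ S C₀ ε δ ζ l B w m 𝒢₁ 𝒢₂ hθ hθ' hS hC hu hl hζ hw y1 y2
    g big => ?_⟩
  have l0 := len_log (t := S ^ 3) (by positivity)
  have p0 : 0 ≤ ε * S := by linarith
  have R0 : 0 ≤ R₁ := nonneg_of_mul_nonneg_right (hθ.trans hθ') c0
  refine hd φ hφ (w l) hw j hj R₁ θ (3 * (ε * S)) (S ^ 3) (l * ζ) (φ (l * ζ)) ζ _ hθ hθ'
    (by linarith) hu (by positivity) (by linarith) (le_trans ?_ big) ?_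
  · exact mul_le_mul_of_nonneg_right (by norm_num) (by positivity)
  rintro ⟨y, τ⟩ ⟨⟨hy, hτ⟩, q1, q2, q3⟩
  have h1 : l⁻¹ * (l * y) ∈ C₀ • M.K (M.h (Metric.closedBall 0 R₁)) := by
    rw [inv_mul_cancel_left, M.h_closedBall 0 R0]
    exact (M.K_isLB _).sc.subset_smul hC hy
  have h2 : (l * y)⁻¹ * (l * (y * τ)) ∈ C₀ • M.K (M.h (Metric.closedBall (R₁ • M.ray j) θ)) := by
    rw [← mul_assoc l, inv_mul_cancel_left, M.h_closedBall _ hθ]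
    exact (M.K_isLB _).sc.subset_smul hC hτ
  obtain ⟨x, hx, z, hz, n1, e1⟩ := M.nu_nf y1 g q1 h1 p0
  obtain ⟨x', hx', z', hz', n2, e2⟩ := M.nu_nf y2 q2 q3 h2 p0
  refine ⟨hy, hτ, x, M.K_mono (fun i _ => ?_) hx, z, hz, x', M.K_mono (fun i _ => ?_) hx', z', hz',
    n1, n2, ?_⟩
  · rw [M.h_image_ball 0 R0, hζ]
    simp only [hb, wv, map_zero, inner_zero_right, inner_neg_right, map_smul]
    linarith
  · rw [M.h_image_ball _ hθ, hζ]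
    simp only [hb, wv, inner_zero_right]
    linarith
  · rw [← e1, ← e2, ← M.conj_eq (Or.inl (M.A_e (M.mul_mem_e (M.K_sub_e _ hy) (M.K_sub_e _ hτ))))]
    congr 1
    group

theorem nu_most (K C σ C₁ δ : ℝ) (hσ : 0 < σ) (hC₁ : 1 ≤ C₁) (hδ : 0 < δ) :
    ∃ C₁' ε' δ' S₀ : ℝ, C₁ ≤ C₁' ∧ 0 < ε' ∧ 0 < δ' ∧ ∀ S : ℝ, S₀ ≤ S →
      ∀ φ, M.MQI K C φ → ∀ Ω B, M.Adm Ω S C₁ 0 B → Metric.closedBall 0 (σ * S) ⊆ Ω →
        ∀ w m, M.Aff φ Ω S C₁' ε' δ' B w m →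
          M.mE.real ((C₁ • B) ∩ {l | ∃ j, M.wt j ≠ 0 ∧ M.nu (w l (M.ray j)) ≠ M.nu (M.ray j)}) ≤
            δ * M.mE.real B := by
  obtain ⟨c₀, Cn, c0, cn, hd⟩ := M.nu_one K C
  obtain ⟨g, g0, hg⟩ := M.nud_gap
  obtain ⟨ι, hι, hι'⟩ := M.exists_sec
  obtain ⟨Ci, ci, hi⟩ := (LinearMap.toContinuousLinearMap ι).bound
  obtain ⟨Cz, cz, hz⟩ := M.mem_Z
  obtain ⟨C₂, c2, hm⟩ := M.nud_meas C₁ hC₁
  obtain ⟨c₁, hc⟩ : ∃ c₁, c₁ = min c₀ 1 := ⟨_, rfl⟩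
  have c1 : 0 < c₁ := by rw [hc]; positivity
  have c3 : c₁ ≤ c₀ := hc ▸ min_le_left _ _
  have c4 : c₁ ≤ 1 := hc ▸ min_le_right _ _
  obtain ⟨ε, hε⟩ : ∃ ε, ε = min (c₁ * σ / 6) (g * c₁ * σ / (12 * Cn)) := ⟨_, rfl⟩
  have e0 : 0 < ε := by rw [hε]; positivity
  have e1 : ε ≤ c₁ * σ / 6 := hε ▸ min_le_left _ _
  have e2 : ε * (12 * Cn) ≤ g * c₁ * σ := (le_div_iff₀ (by positivity)).1 (hε ▸ min_le_right _ _)
  have p0 : 0 ≤ Cz * Ci * σ := by positivity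
  have c5 : C₂ ≤ C₂ + Cz * Ci * σ := by linarith
  obtain ⟨C₁', ε', δ', S₁, a1, a2, -, a3, -, ht⟩ := M.typ_exists (C₂ + Cz * Ci * σ) ε
    (δ / (13 * (M.d + 1))) (by linarith) e0 (by positivity)
  obtain ⟨S₂, S1, hS⟩ := hf_log e0 zero_le_one
  refine ⟨C₁', ε', δ', max S₁ S₂, by linarith, a2, a3, fun S hS₀ φ hφ Ω B hA hΩ w m hw => ?_⟩
  have s1 : 1 ≤ S := S1.trans ((le_max_right _ _).trans hS₀)
  have s0 : 0 ≤ S := zero_le_one.trans s1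
  have l0 := hS S ((le_max_right _ _).trans hS₀)
  rw [one_mul] at l0
  have ht' := ht S ((le_max_left _ _).trans hS₀) φ hφ.1 Ω B
    (hA.mono M s0 (zero_le_one.trans hC₁) (c2.trans c5) le_rfl) w m hw
  obtain ⟨R₁, hR⟩ : ∃ R₁, R₁ = σ * S / 2 := ⟨_, rfl⟩
  have R0 : 0 < R₁ := by rw [hR]; positivity
  have θ0 : 0 < c₁ * R₁ := by positivity
  have θ1 : c₁ * R₁ ≤ R₁ := mul_le_of_le_one_left R0.le c4
  have θ2 : c₁ * R₁ ≤ c₀ * R₁ := by gcongr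
  have u1 : 3 * (ε * S) ≤ c₁ * R₁ := by
    rw [hR]
    linarith [mul_le_mul_of_nonneg_right e1 s0]
  have u2 : Cn * (3 * (ε * S)) < g * (c₁ * R₁) := by
    have : 0 < g * c₁ * σ * S := by positivity
    rw [hR]
    linarith [mul_le_mul_of_nonneg_right e2 s0]
  have fin := M.hf_fin (hA.lb.compact.smul C₁)
  have f := fun S : Set M.G =>
    ne_top_of_le_ne_top fin (measure_mono (Set.inter_subset_left (t := S)))
  have big : M.K (M.h Ω) ⊆ C₁ • B := (M.K_mono fun i _ => by simp).trans hA.big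
  have key : ∀ j, M.mE.real ((C₁ • B) ∩
      {l | M.wt j ≠ 0 ∧ M.nu (w l (M.ray j)) < M.nu (M.ray j)}) ≤
      13 * (δ / (13 * (M.d + 1))) * M.mE.real B := fun j => by
    by_cases hj : M.wt j = 0
    · simp only [hj, ne_eq, not_true_eq_false, false_and, Set.ofPred_false, Set.inter_empty,
        measureReal_empty]
      positivity
    have nv : ‖R₁ • M.ray j‖ = R₁ := by
      rw [norm_smul, M.norm_ray hj, mul_one, Real.norm_of_nonneg R0.le]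
    have z1 : ι (R₁ • M.ray j) ∈ M.Z ((C₂ + Cz * Ci * σ) * S) := by
      refine M.Z_mono (by positivity) ?_ (hz _ (hι _))
      have h1 : ‖ι (R₁ • M.ray j)‖ ≤ Ci * ‖R₁ • M.ray j‖ := hi _
      rw [nv, hR] at h1
      rw [hR]
      linarith [mul_le_mul_of_nonneg_left h1 (zero_le_one.trans cz), mul_nonneg p0 s0,
        mul_nonneg (zero_le_one.trans (hC₁.trans c2)) s0]
    have b1 : Metric.closedBall 0 R₁ ⊆ Ω :=
      (Metric.closedBall_subset_closedBall (by linarith)).trans hΩ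
    have b2 : Metric.closedBall (R₁ • M.ray j) (c₁ * R₁) ⊆ Ω :=
      (Metric.closedBall_subset_closedBall' (by rw [dist_zero_right, nv]; linarith)).trans hΩ
    obtain ⟨𝒢₁, y1⟩ := ht' _ b1 (convex_closedBall _ _) (isCompact_closedBall _ _) _ z1
      (by rw [hι', mem_closedBall_zero_iff, nv])
    obtain ⟨𝒢₂, y2⟩ := ht' _ b2 (convex_closedBall _ _) (isCompact_closedBall _ _) _ z1
      (by rw [hι']; exact Metric.mem_closedBall_self θ0.le)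
    have k1 := (M.nu_h_mono hA.compact (isCompact_closedBall _ _)
      (Metric.nonempty_closedBall.2 R0.le) b1).trans big
    have k2 := (M.nu_h_mono hA.compact (isCompact_closedBall _ _)
      (Metric.nonempty_closedBall.2 θ0.le) b2).trans big
    rw [M.h_closedBall _ R0.le] at k1
    rw [M.h_closedBall _ θ0.le] at k2
    refine le_trans (measureReal_mono ?_ (f _)) (hm _ _ B _ _ 𝒢₁ 𝒢₂ c5 (by positivity) hA.lb hA.sub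
      (M.K_isLB _).compact (M.K_isLB _).compact k1 k2 y1.meas y2.meas y1.most y2.most)
    rintro l ⟨hl, -, hl'⟩
    refine ⟨hl, fun h => ?_⟩
    have h1 := hd φ hφ j hj R₁ (c₁ * R₁) S _ ε _ _ l B w m 𝒢₁ 𝒢₂ θ0.le θ2 s0
      (hC₁.trans (c2.trans c5)) (u1.trans θ2) l0 (hι' _) (hw.memW l) y1 y2 h.1 h.2
    linarith [mul_le_mul_of_nonneg_right (hg _ (hw.memW l) j hl') θ0.le]
  refine (measureReal_mono (s₂ := ⋃ j, (C₁ • B) ∩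
    {l | M.wt j ≠ 0 ∧ M.nu (w l (M.ray j)) < M.nu (M.ray j)}) ?_ (ne_top_of_le_ne_top fin
      (measure_mono (Set.iUnion_subset fun j => Set.inter_subset_left)))).trans
    ((measureReal_iUnion_fintype_le _).trans ((Finset.sum_le_sum fun j _ => key j).trans ?_))
  · rintro l ⟨hl, j, hj, hn⟩
    by_contra h
    simp only [Set.mem_iUnion, Set.mem_inter_iff, hl, true_and, Set.mem_ofPred_eq, not_exists,
      not_and, not_lt] at h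
    exact hn (M.nu_perm _ h j hj)
  · rw [Finset.sum_const, Finset.card_univ, Fintype.card_fin, nsmul_eq_mul, ← mul_assoc]
    refine mul_le_mul_of_nonneg_right ?_ measureReal_nonneg
    rw [← mul_assoc, ← mul_div_assoc, div_le_iff₀ (by positivity)]
    linarith

end Vale.Agent.P188.Geo
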