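import Vale.Agent.P188.B.Half
import Vale.Agent.P188.B.NU
import Vale.Agent.P188.B.Fin

/-! Part B (sub-project): the sibling move.  Plan: notes/P188_B.md. -/

namespace Vale.Agent.P188.Geo
open scoped InnerProductSpace Pointwise
open MeasureTheory
variable (M : Geo)

/-- Statement of the sibling move. -/
def SibStmt : Prop := ∀ K C : ℝ, ∃ D η₀ : ℝ, 1 ≤ D ∧ 0 < η₀ ∧ D * η₀ ≤ 4⁻¹ ∧
  ∀ η C₁ ε δ : ℝ, 0 < η → η ≤ η₀ → 1 ≤ C₁ → 0 < ε → 0 < δ → ∃ S₀ : ℝ, ∀ R : ℝ, S₀ ≤ R →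
    M.K (fun i => M.hb 0 ((1 - D * η) * R) i + η * R) ⊆ M.Lb η R ∧
    ∀ φ, M.MQI K C φ → ∀ i, M.wt i ≠ 0 → ∀ τ : ℝ,
      |τ| ≤ C₁ * Real.exp ((1 + η) * R * ‖M.wt i‖) →
      ∀ ζ ∈ M.Z (C₁ * R), ‖M.A ζ‖ ≤ (1 - D * η) * R →
        M.mE.real (M.Lb η R ∩
          {l | ε * R < ‖M.A (φ (l * (τ • M.X i) * ζ)) - M.A (φ (l * ζ))‖}) ≤
          δ * M.mE.real (M.Lb η R)

instance instFinMEsib : IsFiniteMeasureOnCompacts M.mE :=
  inferInstanceAs (IsFiniteMeasureOnCompacts (subMu M.e))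
instance instSFinMEsib : SFinite M.mE := inferInstanceAs (SFinite (subMu M.e))

theorem Typ.mono {φ Ω ζ S C₁ ε δ B w m 𝒢} (h : M.Typ φ Ω ζ S C₁ ε δ B w m 𝒢) (hB : M.IsLB B)
    {C₀ : ℝ} (h0 : 0 ≤ C₀) (hC : C₀ ≤ C₁) : M.Typ φ Ω ζ S C₀ ε δ B w m 𝒢 := by
  have ha : |C₀| ≤ C₁ := by rwa [abs_of_nonneg h0]
  refine ⟨h.meas, le_trans (measureReal_mono ?_ ?_) h.most, h.ht, fun l₀ h₀ l₁ h₁ hl =>
    h.rel l₀ h₀ l₁ h₁ ((M.K_isLB _).sc.smul_mono ha hl)⟩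
  · exact Set.diff_subset_diff_left (hB.sc.smul_mono ha)
  · exact ne_top_of_le_ne_top (hB.compact.smul C₁).measure_lt_top.ne
      (measure_mono Set.diff_subset)

theorem adm_child {D η R θ Cb Ca : ℝ} (hη : 0 ≤ η) (hR : 0 ≤ R) (hD : 0 ≤ D) (hDη : D * η ≤ 1)
    (hθ : θ ≤ η) (hCb : 1 ≤ Cb) (hCa0 : 0 ≤ Ca) (hCa : Ca ≤ Cb)
    (hL : M.K (fun j => M.hb 0 ((1 - D * η) * R) j + η * R) ⊆ M.Lb η R) {t : M.G}
    (ht : ∀ y ∈ M.Lb η R, M.Ad t y ∈ Ca • M.Lb η R) :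
    M.Adm (Metric.closedBall 0 ((1 - D * η) * R)) R Cb θ (M.Ad t⁻¹ '' M.Lb η R) := by
  have h0 : 0 ≤ (1 - D * η) * R := mul_nonneg (by linarith) hR
  have hLB := M.Lb_isLB hη hR
  refine ⟨convex_closedBall _ _, isCompact_closedBall _ _, Metric.nonempty_closedBall.2 h0,
    Metric.closedBall_subset_closedBall ?_, IsLB.image_Ad M hLB _, ?_, ?_⟩
  · have := mul_nonneg hD hη
    nlinarith
  · rintro _ ⟨y, hy, rfl⟩
    exact M.Ad_mem_e _ (M.Lb_sub_e η R hy)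
  · intro y hy
    rw [M.h_closedBall 0 h0] at hy
    have hy' : y ∈ M.Lb η R := hL (M.K_mono (fun j _ => by nlinarith) hy)
    obtain ⟨z, hz, hzy⟩ := ht y hy'
    have : y = Ca • M.Ad t⁻¹ z := by
      rw [← map_smul, show Ca • z = M.Ad t y from hzy, ← M.Ad_mul, inv_mul_cancel, M.Ad_one]
    refine (IsLB.image_Ad M hLB _).sc.smul_mono (s := Ca) (by rwa [abs_of_nonneg hCa0]) ?_
    exact ⟨_, ⟨z, hz, rfl⟩, this.symm⟩

theorem adm_parent {D η R θ Cb : ℝ} (hη : 0 ≤ η) (hη1 : η ≤ 1) (hR : 0 ≤ R) (hD : 0 ≤ D)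
    (hDη : D * η ≤ 1) (hθ : θ ≤ η) (hCb : 4 ≤ Cb) {s : M.V} (hs : ‖s‖ = 1)
    (hθ' : ∀ j, M.wt j ≠ 0 → θ * R ≤ η * R * ‖M.wt j‖)
    (hL : ∀ j, M.wt j ≠ 0 → M.hb 0 ((1 - D * η) * R) j + η * R + M.c * (3 * η * R * M.wmax) ≤
      M.hb 0 ((1 + 3 * η) * R) j) :
    M.Adm (M.OmP ((1 - D * η) * R) R η s) R Cb θ
      ((4 : ℝ)⁻¹ • (M.Lb η R + M.K (fun j => M.hl R η s j + θ * R))) := by
  have h0 : 0 ≤ (1 - D * η) * R := mul_nonneg (by linarith) hR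
  have hDη0 := mul_nonneg hD hη
  have hT : M.K (fun j => M.hl R η s j + θ * R) ⊆ M.K (M.hb 0 ((1 + 3 * η) * R)) :=
    M.K_mono fun j hj => M.hl_le hs hR hη j (hθ' j hj)
  have hLB := IsLB.add M (M.Lb_isLB hη hR) (M.K_isLB (fun j => M.hl R η s j + θ * R))
    (fun x hx y hy => M.Lb_ideal η R x (hT hx) y hy)
  refine ⟨M.OmP_convex _ _ _ _, M.OmP_compact _ _ _ _,
    ⟨0, M.ball_subset_OmP _ _ _ _ (Metric.mem_closedBall_self h0)⟩,
    (M.OmP_subset hs hR hη (by nlinarith)).trans (Metric.closedBall_subset_closedBall ?_),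
    hLB, ?_, ?_⟩
  · nlinarith
  · rintro _ ⟨_, ⟨x, hx, y, hy, rfl⟩, rfl⟩
    exact M.e.smul_mem _ (M.e.add_mem (M.Lb_sub_e η R hx) (M.K_sub_e _ hy))
  · have hκ : 0 ≤ (M.c : ℝ) * (3 * η * R * M.wmax) := by
      have := M.wmax_nonneg
      positivity
    have h1 := M.K_max_subset (r₁ := fun j => M.hb 0 ((1 - D * η) * R) j + θ * R)
      (r₂ := fun j => M.hl R η s j + θ * R) (rp := M.hb 0 ((1 + 3 * η) * R))
      (r := fun j => M.h (M.OmP ((1 - D * η) * R) R η s) j + θ * R) hκ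
      (fun j hj => by have := hL j hj; nlinarith)
      (fun j hj => M.hl_le hs hR hη j (hθ' j hj))
      (fun j _ => by rw [M.h_OmP h0 (mul_nonneg hη hR), max_add_add_right])
    intro y hy
    refine hLB.sc.smul_mono (s := 4) (by rw [abs_of_nonneg] <;> linarith) ?_
    rw [smul_smul, mul_inv_cancel₀ (by norm_num), one_smul]
    exact h1 hy

theorem sib (hA : M.AffStmt) : M.SibStmt := by
  intro K C
  obtain ⟨D, hD, hLb⟩ := M.subset_Lb
  obtain ⟨C₀, hC₀, hhalf⟩ := M.half K C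
  obtain ⟨η₁, hη₁, hhalf⟩ := hhalf D hD
  obtain ⟨η₂, hη₂, hfin⟩ := M.sib_fin K C D hD
  obtain ⟨wmin, hwmin, hw⟩ := M.exists_wmin
  obtain ⟨ι, hι0, hιA⟩ := M.exists_sec
  obtain ⟨CZ, hCZ, hZ⟩ := M.mem_Z
  obtain ⟨Ca, hCa, hAd⟩ := M.Ad_mem 1 zero_le_one
  set Cι := ‖LinearMap.toContinuousLinearMap ι‖ with hCι
  have hCι0 : 0 ≤ Cι := norm_nonneg _
  have hιn : ∀ v, ‖ι v‖ ≤ Cι * ‖v‖ := fun v => (LinearMap.toContinuousLinearMap ι).le_opNorm v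
  have hD0 : 0 < D := by linarith
  refine ⟨D, min (min η₁ η₂) (4 * D)⁻¹, hD, by positivity, ?_, ?_⟩
  · calc D * min (min η₁ η₂) (4 * D)⁻¹ ≤ D * (4 * D)⁻¹ := by gcongr; exact min_le_right _ _
      _ = 4⁻¹ := by field_simp
  intro η C₁ ε δ hη hηle hC₁ hε hδ
  have hη1 : η ≤ η₁ := hηle.trans ((min_le_left _ _).trans (min_le_left _ _))
  have hη2 : η ≤ η₂ := hηle.trans ((min_le_left _ _).trans (min_le_right _ _))
  have hDη : D * η ≤ 4⁻¹ := by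
    calc D * η ≤ D * (4 * D)⁻¹ := by gcongr; exact hηle.trans (min_le_right _ _)
      _ = 4⁻¹ := by field_simp
  have hηone : η ≤ 1 := by nlinarith
  obtain ⟨C₂, S₂, hC₂, hfin⟩ := hfin η C₁ hη hη2 hC₁
  set εf := min (ε / 3) η with hεf
  have hεf0 : 0 < εf := by positivity
  set δf := δ / (2 * M.k + 5) with hδf
  have hδf0 : 0 < δf := by positivity
  set Cζ := CZ * Cι + 1 with hCζ
  have hCζ1 : 1 ≤ Cζ := by have := mul_nonneg (by linarith : 0 ≤ CZ) hCι0; linarith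
  obtain ⟨ε', δ', S₁, hε', -, hδ', hhalf⟩ :=
    hhalf η (εf / 2) (δf / 2) Cζ hη hη1 (by positivity) (by positivity) hCζ1
  set Cb := max (max C₀ Cζ) (max Ca 4) with hCb
  have b1 : C₀ ≤ Cb := (le_max_left _ _).trans (le_max_left _ _)
  have b2 : Cζ ≤ Cb := (le_max_right _ _).trans (le_max_left _ _)
  have b3 : Ca ≤ Cb := (le_max_left _ _).trans (le_max_right _ _)
  have b4 : 4 ≤ Cb := (le_max_right _ _).trans (le_max_right _ _)
  obtain ⟨C₃, ε₃, δ₃, S₃, hC₃, hε₃, hε₃', hδ₃, -, htyp⟩ :=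
    M.typ_exists Cb ε' δ' (by linarith) hε' hδ'
  obtain ⟨C₄, ε₄, δ₄, S₄, hC₄, hε₄, hδ₄, hnu⟩ :=
    M.nu_most K C (1 / 2) Cb δ' (by norm_num) (by linarith) hδ'
  set θ := min (min ε₃ ε₄) (min εf (η * wmin)) with hθ
  have hθ0 : 0 < θ := by positivity
  have t1 : θ ≤ ε₃ := (min_le_left _ _).trans (min_le_left _ _)
  have t2 : θ ≤ ε₄ := (min_le_left _ _).trans (min_le_right _ _)
  have t3 : θ ≤ εf := (min_le_right _ _).trans (min_le_left _ _)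
  have t4 : θ ≤ η * wmin := (min_le_right _ _).trans (min_le_right _ _)
  have t5 : θ ≤ η := t3.trans (min_le_right _ _)
  set Cm := max (max C₃ C₄) C₂ with hCm
  have m1 : C₃ ≤ Cm := (le_max_left _ _).trans (le_max_left _ _)
  have m2 : C₄ ≤ Cm := (le_max_right _ _).trans (le_max_left _ _)
  have m3 : C₂ ≤ Cm := le_max_right _ _
  set δm := min (min δ₃ δ₄) δf with hδm
  have d1 : δm ≤ δ₃ := (min_le_left _ _).trans (min_le_left _ _)
  have d2 : δm ≤ δ₄ := (min_le_left _ _).trans (min_le_right _ _)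
  have d3 : δm ≤ δf := min_le_right _ _
  obtain ⟨S₅, haff⟩ := hA K C Cm θ δm (by linarith) hθ0 (by positivity)
  refine ⟨|S₁| + |S₂| + |S₃| + |S₄| + |S₅| + C₁ / (η * wmin), fun R hR => ?_⟩
  have a1 := le_abs_self S₁
  have a2 := le_abs_self S₂
  have a3 := le_abs_self S₃
  have a4 := le_abs_self S₄
  have a5 := le_abs_self S₅
  have n1 := abs_nonneg S₁
  have n2 := abs_nonneg S₂
  have n3 := abs_nonneg S₃
  have n4 := abs_nonneg S₄
  have n5 := abs_nonneg S₅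
  have n6 : 0 ≤ C₁ / (η * wmin) := by positivity
  have hR0 : 0 ≤ R := by linarith
  have r1 : S₁ ≤ R := by linarith
  have r2 : S₂ ≤ R := by linarith
  have r3 : S₃ ≤ R := by linarith
  have r4 : S₄ ≤ R := by linarith
  have r5 : S₅ ≤ R := by linarith
  have r6 : C₁ / (η * wmin) ≤ R := by linarith
  clear a1 a2 a3 a4 a5 n1 n2 n3 n4 n5 n6 hR
  have hCb1 : 1 ≤ Cb := hC₀.trans b1
  have hCb0 : 0 ≤ Cb := zero_le_one.trans hCb1
  have hCbm : Cb ≤ Cm := hC₃.trans m1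
  have hC30 : 0 ≤ C₃ := hCb0.trans hC₃
  have hC40 : 0 ≤ C₄ := hCb0.trans hC₄
  have hC20 : 0 ≤ C₂ := (zero_le_one.trans hC₁).trans hC₂
  have hC00 : 0 ≤ C₀ := zero_le_one.trans hC₀
  have hDη1 : D * η ≤ 1 := hDη.trans (by norm_num)
  have hhalfR : 1 / 2 * R ≤ (1 - D * η) * R :=
    mul_le_mul_of_nonneg_right (by clear * - hDη; linarith) hR0
  obtain ⟨hL1, hL2⟩ := hLb D η R le_rfl hη.le hR0
  refine ⟨hL2, fun φ hφ i hi τ hτ ζ₀ hζ₀ hAζ₀ => ?_⟩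
  have hs := M.norm_ray hi
  have hR'' : 0 ≤ (1 - D * η) * R := mul_nonneg (sub_nonneg.2 hDη1) hR0
  have hθ' : ∀ j, M.wt j ≠ 0 → θ * R ≤ η * R * ‖M.wt j‖ := fun j hj => by
    have := hw j hj
    calc θ * R ≤ η * wmin * R := by gcongr
      _ = η * R * wmin := by ring
      _ ≤ _ := by gcongr
  have hhl : M.K (M.hl R η (M.ray i)) ⊆ M.K (M.hb 0 ((1 + 3 * η) * R)) :=
    M.K_mono fun j hj => by
      have := M.hl_le (t := 0) hs hR0 hη.le j (by positivity)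
      simpa using this
  have ht : τ • M.X i ∈ M.K (M.hl R η (M.ray i)) := by
    refine M.X_mem_K hi (hτ.trans ?_)
    have e1 : ⟪M.wt i, M.ray i⟫_ℝ = ‖M.wt i‖ := by
      have : ‖M.wt i‖ ≠ 0 := norm_ne_zero_iff.2 hi
      rw [ray, inner_smul_right, real_inner_self_eq_norm_sq]
      field_simp
    have e2 : M.hl R η (M.ray i) i = η * R * ‖M.wt i‖ + (1 + η) * R * ‖M.wt i‖ := by
      simp only [hl, hb, inner_smul_right, e1]; ring
    rw [e2, Real.exp_add]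
    gcongr
    have h1 : C₁ ≤ η * wmin * R := by
      rw [div_le_iff₀ (by positivity)] at r6
      exact r6.trans (le_of_eq (mul_comm _ _))
    have h2 : η * wmin * R ≤ η * R * ‖M.wt i‖ := by
      have := hw i hi
      calc η * wmin * R = η * R * wmin := by ring
        _ ≤ _ := by gcongr
    exact (h1.trans h2).trans ((le_add_of_nonneg_right zero_le_one).trans
      (Real.add_one_le_exp _))
  have hLB := M.Lb_isLB hη.le hR0
  have hAdt : ∀ t ∈ M.K (M.hl R η (M.ray i)), ∀ y ∈ M.Lb η R, M.Ad t y ∈ Ca • M.Lb η R :=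
    fun t ht y hy => hAd _ _ hLB.sc (M.Lb_ideal η R) t (by simpa using hhl ht)
      (Or.inl (M.A_e (M.K_sub_e _ ht))) y hy
  have hchild : ∀ t ∈ M.K (M.hl R η (M.ray i)),
      M.Adm (Metric.closedBall 0 ((1 - D * η) * R)) R Cb θ (M.Ad t⁻¹ '' M.Lb η R) :=
    fun t ht => M.adm_child hη.le hR0 hD0.le hDη1 t5 hCb1 (zero_le_one.trans hCa) b3 hL2
      (hAdt t ht)
  have hpar := M.adm_parent (θ := θ) hη.le hηone hR0 hD0.le hDη1 t5 b4 hs hθ' hL1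
  set ζ := ι (((1 - D * η) * R) • M.ray i) with hζ
  have hζA : M.A ζ = ((1 - D * η) * R) • M.ray i := hιA _
  have hζZ : ζ ∈ M.Z (Cζ * R) := by
    refine M.Z_mono (by positivity) ?_ (hZ ζ (hι0 _))
    have h1 := hιn (((1 - D * η) * R) • M.ray i)
    rw [norm_smul, hs, mul_one, Real.norm_of_nonneg hR''] at h1
    have h2 : (1 - D * η) * R ≤ R :=
      mul_le_of_le_one_left hR0 (sub_le_self _ (mul_pos hD0 hη).le)
    calc CZ * ‖ζ‖ ≤ CZ * (Cι * R) := by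
          gcongr
          exact h1.trans (by gcongr)
      _ ≤ Cζ * R := by rw [hCζ, add_mul, one_mul, mul_assoc]; exact le_add_of_nonneg_right hR0
  have hζZ' : ζ ∈ M.Z (Cb * R) := M.Z_mono (by positivity) (by gcongr) hζZ
  have hζball : M.A ζ ∈ Metric.closedBall (0 : M.V) ((1 - D * η) * R) := by
    rw [mem_closedBall_zero_iff, hζA, norm_smul, hs, mul_one, Real.norm_of_nonneg hR'']
  obtain ⟨w₂, m₂, hP⟩ := haff R r5 φ hφ _ _
    (Adm.mono M hpar hR0 hCb0 hCbm le_rfl)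
  obtain ⟨𝒢₂, h𝒢₂⟩ := htyp R r3 φ hφ.1 _ _
    (Adm.mono M hpar hR0 hCb0 le_rfl hθ0.le) w₂ m₂
    (Aff.mono M hP hpar.lb hR0 hC30 m1 t1 d1) _ subset_rfl hpar.convex hpar.compact ζ hζZ'
    (M.ball_subset_OmP _ _ _ _ hζball)
  have hN := hnu R r4 φ hφ _ _ (Adm.mono M hpar hR0 hCb0 le_rfl hθ0.le)
    ((Metric.closedBall_subset_closedBall hhalfR).trans (M.ball_subset_OmP _ _ _ _)) w₂ m₂
    (Aff.mono M hP hpar.lb hR0 hC40 m2 t2 d2)
  set N : Set M.G := {l | M.nu (w₂ l (M.ray i)) ≠ M.nu (M.ray i)} with hNdef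
  have hNm : MeasurableSet N := by
    have : N = ⋃ u ∈ {u ∈ M.W | M.nu (u (M.ray i)) ≠ M.nu (M.ray i)}, {l | w₂ l = u} := by
      ext l
      simp only [hNdef, Set.mem_setOf_eq, Set.mem_iUnion, exists_prop]
      exact ⟨fun h => ⟨_, ⟨hP.memW l, h⟩, rfl⟩, fun ⟨u, hu, e⟩ => e ▸ hu.2⟩
    rw [this]
    exact MeasurableSet.biUnion (M.W_finite.subset (Set.sep_subset _ _)).countable
      fun u _ => hP.meas_w u
  have key : ∀ t ∈ M.K (M.hl R η (M.ray i)), ∀ w₁ m₁,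
      M.Aff (fun x => φ (t * x)) (Metric.closedBall 0 ((1 - D * η) * R)) R Cm θ δm
        (M.Ad t⁻¹ '' M.Lb η R) w₁ m₁ →
      (M.mE.prod M.mE).real {q | q.1 ∈ M.Lb η R ∧
            q.2 ∈ M.K (fun j => M.hl R η (M.ray i) j + θ * R) ∧
            εf / 2 * R < ‖m₁ (t⁻¹ * q.1 * t) - m₂ (q.1 * q.2)‖} ≤
          δf / 2 * (M.mE.real (M.Lb η R) *
            M.mE.real (M.K (fun j => M.hl R η (M.ray i) j + θ * R))) := by
    intro t ht w₁ m₁ h1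
    have hc := hchild t ht
    obtain ⟨𝒢₁, h𝒢₁⟩ := htyp R r3 _ (MQI.comp_mul_left M hφ t).1 _ _
      (Adm.mono M hc hR0 hCb0 le_rfl hθ0.le) w₁ m₁
      (Aff.mono M h1 hc.lb hR0 hC30 m1 t1 d1) _ subset_rfl hc.convex hc.compact ζ hζZ'
      hζball
    refine hhalf θ hθ0.le (t1.trans hε₃') R r1 hL2 φ hφ i hi t ht ζ hζZ hζA
      w₁ m₁ 𝒢₁ w₂ m₂ 𝒢₂ N h1.meas_m hP.meas_m hP.memW
      (Typ.mono M h𝒢₁ hc.lb hC00 b1) (Typ.mono M h𝒢₂ hpar.lb hC00 b1) hNm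
      (fun l hl => by simpa [hNdef] using hl) (le_trans (measureReal_mono ?_ ?_) hN)
    · exact Set.inter_subset_inter (hpar.lb.sc.smul_mono (by rwa [abs_of_nonneg hC00]))
        fun l hl => ⟨i, hi, hl⟩
    · exact ne_top_of_le_ne_top (hpar.lb.compact.smul Cb).measure_lt_top.ne
        (measure_mono Set.inter_subset_left)
  have h1mem : (1 : M.G) ∈ M.K (M.hl R η (M.ray i)) := (M.K_isLB _).sc.zero_mem
  obtain ⟨w₁, m₁, hc₁⟩ := haff R r5 _ (MQI.comp_mul_left M hφ (τ • M.X i)) _ _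
    (Adm.mono M (hchild _ ht) hR0 hCb0 hCbm le_rfl)
  obtain ⟨w₁', m₁', hc₁'⟩ := haff R r5 _ (MQI.comp_mul_left M hφ 1) _ _
    (Adm.mono M (hchild _ h1mem) hR0 hCb0 hCbm le_rfl)
  have k1 := key _ ht w₁ m₁ hc₁
  have k2 := key _ h1mem w₁' m₁' hc₁'
  have f1 := (Aff.mono M hc₁ (hchild _ ht).lb hR0 hC20 m3 t3 d3).toAff0
  have f2 := (Aff.mono M hc₁' (hchild _ h1mem).lb hR0 hC20 m3 t3 d3).toAff0
  have e1 : (fun x => φ (1 * x)) = φ := by simp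
  have e2 : M.Ad (1 : M.G)⁻¹ '' M.Lb η R = M.Lb η R := by
    rw [inv_one]
    ext y
    simp [M.Ad_one]
  rw [e1, e2] at f2
  simp only [inv_one, one_mul, mul_one] at k2
  set T' := M.K (fun j => M.hl R η (M.ray i) j + θ * R) with hT'
  have hT'pos : 0 < M.mE.real T' := M.mE_K_pos _
  have hfinite : (M.mE.prod M.mE) (M.Lb η R ×ˢ T') ≠ ⊤ := by
    rw [Measure.prod_prod]
    exact ENNReal.mul_ne_top hLB.compact.measure_lt_top.ne (M.K_isLB _).compact.measure_lt_top.ne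
  have hbad : M.mE.real (M.Lb η R ∩
      {l | εf * R < ‖m₁ ((τ • M.X i)⁻¹ * l * (τ • M.X i)) - m₁' l‖}) ≤
      δf * M.mE.real (M.Lb η R) := by
    refine le_of_mul_le_mul_right ?_ hT'pos
    rw [← measureReal_prod_prod]
    refine le_trans (measureReal_mono (s₂ := _ ∪ _) ?_ ?_)
      ((measureReal_union_le _ _).trans ((add_le_add k1 k2).trans (le_of_eq (by ring))))
    · rintro ⟨l, t'⟩ ⟨⟨hl, hb⟩, ht'⟩
      by_contra hcon
      simp only [Set.mem_union, Set.mem_setOf_eq, not_or, not_and, not_lt] at hcon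
      have g1 := hcon.1 hl ht'
      have g2 := hcon.2 hl ht'
      have g3 := norm_sub_le_norm_sub_add_norm_sub (m₁ ((τ • M.X i)⁻¹ * l * (τ • M.X i)))
        (m₂ (l * t')) (m₁' l)
      rw [norm_sub_rev (m₂ _)] at g3
      simp only [Set.mem_setOf_eq] at hb
      clear * - hb g1 g2 g3
      linarith
    · refine ne_top_of_le_ne_top hfinite (measure_mono ?_)
      rintro q (hq | hq) <;> exact ⟨hq.1, hq.2.1⟩
  have fin := hfin εf δf R hεf0 (min_le_right _ _) hδf0 r2 φ hφ i hi τ hτ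
    w₁ m₁ w₁' m₁' f1 f2 hbad ζ₀ hζ₀ hAζ₀
  refine le_trans (measureReal_mono ?_ ?_) (fin.trans (le_of_eq ?_))
  · refine Set.inter_subset_inter_right _ fun l hl => ?_
    have : εf ≤ ε / 3 := min_le_left _ _
    simp only [Set.mem_setOf_eq] at hl ⊢
    refine lt_of_le_of_lt ?_ hl
    clear * - this hR0
    nlinarith
  · exact ne_top_of_le_ne_top hLB.compact.measure_lt_top.ne (measure_mono Set.inter_subset_left)
  · rw [hδf]
    field_simp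

end Vale.Agent.P188.Geo
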