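import Mathlib

/-! Fubini and Markov for product measures. -/

namespace Vale.Agent.P188
open MeasureTheory

variable {X Y : Type} [MeasurableSpace X] [MeasurableSpace Y]

theorem hf_markov (μ : Measure X) (ν : Measure Y) [SFinite μ] [SFinite ν] {A : Set X} {B : Set Y}
    (hA : MeasurableSet A) (hB : MeasurableSet B) (hA' : μ A ≠ ⊤) (hB' : ν B ≠ ⊤)
    {E : Set (X × Y)} (hE : MeasurableSet E) {a κ : ℝ} (hκ : 0 < κ) (ha : 0 ≤ a)
    (h : ∀ y ∈ B, μ.real (A ∩ {x | (x, y) ∈ E}) ≤ a) :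
    μ.real (A ∩ {x | κ * ν.real B < ν.real (B ∩ {y | (x, y) ∈ E})}) ≤ a / κ := by
  rcases (measureReal_nonneg (μ := ν) (s := B)).eq_or_lt with h0 | h0
  · have : A ∩ {x | κ * ν.real B < ν.real (B ∩ {y | (x, y) ∈ E})} = ∅ := by
      ext x
      simp only [Set.mem_inter_iff, Set.mem_ofPred_eq, Set.mem_empty_iff_false, iff_false, not_and,
        not_lt]
      intro _
      rw [← h0, mul_zero, h0]
      exact measureReal_mono Set.inter_subset_left hB'
    rw [this, measureReal_empty]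
    positivity
  have mF : MeasurableSet (E ∩ A ×ˢ B) := hE.inter (hA.prod hB)
  have h1 : μ.prod ν (E ∩ A ×ˢ B) ≤ ENNReal.ofReal a * ν B := by
    rw [Measure.prod_apply_symm mF, ← lintegral_indicator_const hB]
    refine lintegral_mono fun y => ?_
    by_cases hy : y ∈ B
    · rw [Set.indicator_of_mem hy]
      have e : (fun x => (x, y)) ⁻¹' (E ∩ A ×ˢ B) = A ∩ {x | (x, y) ∈ E} := by
        ext x
        simp [hy, and_comm]
      rw [e, ← ofReal_measureReal (ne_top_of_le_ne_top hA' (measure_mono Set.inter_subset_left))]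
      exact ENNReal.ofReal_le_ofReal (h y hy)
    · have e : (fun x => (x, y)) ⁻¹' (E ∩ A ×ˢ B) = ∅ := by
        ext x
        simp [hy]
      rw [e, measure_empty]
      exact zero_le
  have h2 := mul_meas_ge_le_lintegral₀ (μ := μ)
    (measurable_measure_prodMk_left (ν := ν) mF).aemeasurable (ENNReal.ofReal (κ * ν.real B))
  rw [← Measure.prod_apply mF] at h2
  have h3 : A ∩ {x | κ * ν.real B < ν.real (B ∩ {y | (x, y) ∈ E})} ⊆
      {x | ENNReal.ofReal (κ * ν.real B) ≤ ν (Prod.mk x ⁻¹' (E ∩ A ×ˢ B))} := by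
    rintro x ⟨hx, hx'⟩
    have e : Prod.mk x ⁻¹' (E ∩ A ×ˢ B) = B ∩ {y | (x, y) ∈ E} := by
      ext y
      simp [hx, and_comm]
    rw [Set.mem_ofPred_eq, e,
      ← ofReal_measureReal (ne_top_of_le_ne_top hB' (measure_mono Set.inter_subset_left))]
    exact ENNReal.ofReal_le_ofReal (le_of_lt hx')
  have h4 := ((mul_le_mul_right (measure_mono h3) _).trans h2).trans h1
  have h5 := ENNReal.toReal_mono (ENNReal.mul_ne_top ENNReal.ofReal_ne_top hB') h4
  rw [ENNReal.toReal_mul, ENNReal.toReal_mul, ENNReal.toReal_ofReal (by positivity),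
    ENNReal.toReal_ofReal ha] at h5
  rw [le_div_iff₀ hκ]
  refine le_of_mul_le_mul_right ?_ h0
  calc _ = κ * ν.real B * μ.real (A ∩ {x | κ * ν.real B < ν.real (B ∩ {y | (x, y) ∈ E})}) := by ring
    _ ≤ _ := h5

/-- The complement of a small bad part is large. -/
theorem hf_compl (ν : Measure Y) {B E : Set Y} (hE : MeasurableSet E) (hB' : ν B ≠ ⊤)
    (h : ¬ 4⁻¹ * ν.real B < ν.real (B ∩ E)) : 3 / 4 * ν.real B ≤ ν.real (B \ E) := by
  have := measureReal_inter_add_sdiff (μ := ν) (s := B) hE hB'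
  push Not at h
  linarith

theorem hf_prod (μ : Measure X) (ν : Measure Y) [SFinite ν] (A : Set X) (B : Set Y) :
    (μ.prod ν).real (A ×ˢ B) = μ.real A * ν.real B := by
  simp only [Measure.real, Measure.prod_prod, ENNReal.toReal_mul]

theorem hf_prod_fin (μ : Measure X) (ν : Measure Y) [SFinite ν] {A : Set X} {B : Set Y}
    (hA : μ A ≠ ⊤) (hB : ν B ≠ ⊤) : μ.prod ν (A ×ˢ B) ≠ ⊤ := by
  rw [Measure.prod_prod]
  exact ENNReal.mul_ne_top hA hB

theorem hf_log {a b : ℝ} (ha : 0 < a) (hb : 0 ≤ b) :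
    ∃ S₀ : ℝ, 1 ≤ S₀ ∧ ∀ R, S₀ ≤ R → Real.log (2 + b * R ^ 3) ≤ a * R := by
  refine ⟨max 1 (2 * (Real.log (2 + b) - 3 * Real.log (a / 6)) / a), le_max_left _ _,
    fun R hR => ?_⟩
  have h1 : 1 ≤ R := (le_max_left _ _).trans hR
  have h2 := (div_le_iff₀ ha).1 ((le_max_right _ _).trans hR)
  have h3 : Real.log (2 + b * R ^ 3) ≤ Real.log ((2 + b) * R ^ 3) :=
    Real.log_le_log (by positivity) (by nlinarith [one_le_pow₀ (n := 3) h1])
  rw [Real.log_mul (by positivity) (by positivity), Real.log_pow] at h3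
  have h4 := Real.log_le_sub_one_of_pos (x := a / 6 * R) (by positivity)
  rw [Real.log_mul (by positivity) (by positivity)] at h4
  push_cast at h3
  linarith

end Vale.Agent.P188
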